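import Vale.Agent.P006.H103.Defs

/-!
P006, block 20a (helper103): sequences of bounded variation and membership in `ClassG`.
-/

namespace Vale.Agent.P006.VR

open Vale.Agent.P006 Finset

/-- `‖v n‖` plus total variation up to `n` is at most `G` -/
def BV (v : ℕ → ℂ) (G : ℝ) : Prop :=
  ∀ n, ‖v n‖ + ∑ j ∈ range n, ‖v j - v (j + 1)‖ ≤ G

theorem BV.mono {v : ℕ → ℂ} {G G' : ℝ} (h : BV v G) (hG : G ≤ G') : BV v G' :=
  fun n => (h n).trans hG

theorem BV.nonneg {v : ℕ → ℂ} {G : ℝ} (h : BV v G) : 0 ≤ G :=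
  le_trans (by positivity) (h 0)

theorem BV.norm_le {v : ℕ → ℂ} {G : ℝ} (h : BV v G) (n : ℕ) : ‖v n‖ ≤ G :=
  le_trans (by
    have : (0 : ℝ) ≤ ∑ j ∈ range n, ‖v j - v (j + 1)‖ := sum_nonneg fun _ _ => norm_nonneg _
    linarith) (h n)

theorem BV.zero : BV (fun _ => 0) 0 := fun n => by simp

theorem BV.add {u v : ℕ → ℂ} {G H : ℝ} (hu : BV u G) (hv : BV v H) :
    BV (fun n => u n + v n) (G + H) := by
  intro n
  have h1 : ‖u n + v n‖ ≤ ‖u n‖ + ‖v n‖ := norm_add_le _ _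
  have h2 : ∑ j ∈ range n, ‖u j + v j - (u (j + 1) + v (j + 1))‖ ≤
      ∑ j ∈ range n, ‖u j - u (j + 1)‖ + ∑ j ∈ range n, ‖v j - v (j + 1)‖ := by
    rw [← sum_add_distrib]
    refine sum_le_sum fun j _ => ?_
    have : u j + v j - (u (j + 1) + v (j + 1)) = (u j - u (j + 1)) + (v j - v (j + 1)) := by ring
    rw [this]; exact norm_add_le _ _
  have h3 := hu n
  have h4 := hv n
  linarith

theorem BV.smul {v : ℕ → ℂ} {G : ℝ} (hv : BV v G) (c : ℂ) :
    BV (fun n => c * v n) (‖c‖ * G) := by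
  intro n
  have h2 : ∑ j ∈ range n, ‖c * v j - c * v (j + 1)‖ =
      ‖c‖ * ∑ j ∈ range n, ‖v j - v (j + 1)‖ := by
    rw [mul_sum]
    refine sum_congr rfl fun j _ => ?_
    rw [← mul_sub, norm_mul]
  rw [h2, norm_mul, ← mul_add]
  exact mul_le_mul_of_nonneg_left (hv n) (norm_nonneg _)

theorem BV.sum {ι : Type*} (s : Finset ι) (v : ι → ℕ → ℂ) (G : ι → ℝ)
    (h : ∀ i ∈ s, BV (v i) (G i)) : BV (fun n => ∑ i ∈ s, v i n) (∑ i ∈ s, G i) := by
  classical
  induction s using Finset.induction_on with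
  | empty => simpa using BV.zero
  | insert i s hi ih =>
    have h1 := ih fun j hj => h j (mem_insert_of_mem hj)
    have h2 := (h i (mem_insert_self _ _)).add h1
    simpa [sum_insert hi] using h2

/-- a nonnegative function, nondecreasing up to `hi` and zero beyond -/
theorem BV.of_mono {g : ℕ → ℝ} {hi M : ℝ} (h0 : ∀ n, 0 ≤ g n) (hM : ∀ n, g n ≤ M)
    (hmono : ∀ n : ℕ, ((n + 1 : ℕ) : ℝ) ≤ hi → g n ≤ g (n + 1))
    (hz : ∀ n : ℕ, hi < (n : ℝ) → g n = 0) : BV (fun n => (g n : ℂ)) (2 * M) := by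
  have hM0 : 0 ≤ M := (h0 0).trans (hM 0)
  have key : ∀ n : ℕ, ∑ j ∈ range n, ‖((g j : ℝ) : ℂ) - ((g (j + 1) : ℝ) : ℂ)‖ ≤
      if (n : ℝ) ≤ hi then g n else 2 * M := by
    intro n
    induction n with
    | zero =>
      simp only [range_zero, sum_empty]
      split_ifs
      · exact h0 _
      · linarith
    | succ n ih =>
      rw [sum_range_succ]
      have h3 : ‖((g n : ℝ) : ℂ) - ((g (n + 1) : ℝ) : ℂ)‖ = |g n - g (n + 1)| := by
        rw [← Complex.ofReal_sub, Complex.norm_real, Real.norm_eq_abs]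
      rw [h3]
      by_cases h1 : ((n + 1 : ℕ) : ℝ) ≤ hi
      · have h2 : (n : ℝ) ≤ hi := le_trans (by push_cast; linarith) h1
        rw [if_pos h2] at ih
        rw [if_pos h1]
        have h4 := hmono n h1
        rw [abs_of_nonpos (by linarith)]
        linarith
      · rw [if_neg h1]
        have h5 := hz (n + 1) (not_le.1 h1)
        rw [h5, sub_zero, abs_of_nonneg (h0 n)]
        by_cases h2 : (n : ℝ) ≤ hi
        · rw [if_pos h2] at ih
          have := hM n
          linarith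
        · rw [if_neg h2] at ih
          rw [hz n (not_le.1 h2)]
          linarith
  intro n
  have h1 := key n
  have h2 : ‖((g n : ℝ) : ℂ)‖ = g n := by
    rw [Complex.norm_real, Real.norm_eq_abs, abs_of_nonneg (h0 n)]
  simp only [h2]
  split_ifs at h1 with h3
  · have := hM n; linarith
  · rw [hz n (not_le.1 h3)]; linarith

open Classical in
/-- indicator of `{n ≤ hi} ∩ (upper set)` times a monotone function -/
theorem BV.ind {P : ℕ → Prop} {g : ℕ → ℝ} {hi M : ℝ} (h0 : ∀ n, 0 ≤ g n)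
    (hM : ∀ n : ℕ, (n : ℝ) ≤ hi → P n → g n ≤ M) (hM0 : 0 ≤ M) (hg : ∀ n, g n ≤ g (n + 1))
    (hP : ∀ n, P n → P (n + 1)) :
    BV (fun n => ((if P n ∧ (n : ℝ) ≤ hi then g n else 0 : ℝ) : ℂ)) (2 * M) := by
  refine BV.of_mono (hi := hi) ?_ ?_ ?_ ?_
  · intro n; split_ifs
    · exact h0 n
    · exact le_rfl
  · intro n
    split_ifs with h
    · exact hM n h.2 h.1
    · exact hM0
  · intro n h1
    have h2 : (n : ℝ) ≤ hi := le_trans (by push_cast; linarith) h1
    by_cases h3 : P n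
    · rw [if_pos ⟨h3, h2⟩, if_pos ⟨hP n h3, h1⟩]; exact hg n
    · rw [if_neg (fun h => h3 h.1)]
      split_ifs
      · exact h0 _
      · exact le_rfl
  · intro n h1
    rw [if_neg (fun h => absurd h.2 (not_le.2 h1))]

end Vale.Agent.P006.VR
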