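import Vale.Agent.P006.H103.Vau

/-!
P006, block 20a (helper103): Vaughan's identity summed against a weight supported on squarefree
primary elements.
-/

namespace Vale.Agent.P006.VR

open Vale.Agent.P006 Finset

theorem mul_div_of_dvd {m c : O} (hm : m ≠ 0) (h : m ∣ c) : m * (c / m) = c :=
  EuclideanDomain.mul_div_cancel' hm h

theorem mul_div_left {m n : O} (hm : m ≠ 0) : (m * n) / m = n := mul_div_cancel_left₀ n hm

theorem mem_PB_div {X : ℝ} {m n : O} (hm : Primary m) :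
    n ∈ PB (X / N m) ↔ Primary n ∧ ((N (m * n) : ℕ) : ℝ) ≤ X := by
  rw [mem_PB, N_mul, Nat.cast_mul, le_div_iff₀ (by exact_mod_cast N_pos hm.ne_zero), mul_comm]

/-- sum over `c` and primary divisors `m` of `c` = sum over pairs `(m, n)`, `c = m n` -/
theorem sum_dvs_reindex {M : Type*} [AddCommMonoid M] (X : ℝ) (F : O → O → M) :
    ∑ c ∈ PB X, ∑ m ∈ dvs c, F m c = ∑ m ∈ PB X, ∑ n ∈ PB (X / N m), F m (m * n) := by
  classical
  rw [sum_sigma', sum_sigma']
  refine sum_bij' (fun x _ => ⟨x.2, x.1 / x.2⟩) (fun y _ => ⟨y.1 * y.2, y.1⟩) ?_ ?_ ?_ ?_ ?_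
  · rintro ⟨c, m⟩ hx
    simp only [mem_sigma] at hx ⊢
    obtain ⟨hc, hm⟩ := hx
    rw [mem_PB] at hc
    rw [mem_dvs hc.1.ne_zero] at hm
    have h1 := mul_div_of_dvd hm.1.ne_zero hm.2
    rw [mem_PB_div hm.1, mem_PB, h1]
    refine ⟨⟨hm.1, ?_⟩, hc.1.quot hm.1 h1.symm, hc.2⟩
    refine le_trans ?_ hc.2
    exact_mod_cast Nat.le_of_dvd (N_pos hc.1.ne_zero) (N_dvd_N hm.2)
  · rintro ⟨m, n⟩ hy
    simp only [mem_sigma] at hy ⊢
    obtain ⟨hm, hn⟩ := hy
    rw [mem_PB] at hm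
    rw [mem_PB_div hm.1] at hn
    rw [mem_PB, mem_dvs (hm.1.mul hn.1).ne_zero]
    exact ⟨⟨hm.1.mul hn.1, hn.2⟩, hm.1, dvd_mul_right _ _⟩
  · rintro ⟨c, m⟩ hx
    simp only [mem_sigma] at hx
    obtain ⟨hc, hm⟩ := hx
    rw [mem_PB] at hc
    rw [mem_dvs hc.1.ne_zero] at hm
    have h1 := mul_div_of_dvd hm.1.ne_zero hm.2
    simp only [h1]
  · rintro ⟨m, n⟩ hy
    simp only [mem_sigma] at hy
    obtain ⟨hm, hn⟩ := hy
    rw [mem_PB] at hm
    simp only [mul_div_left hm.1.ne_zero]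
  · rintro ⟨c, m⟩ hx
    simp only [mem_sigma] at hx
    obtain ⟨hc, hm⟩ := hx
    rw [mem_PB] at hc
    rw [mem_dvs hc.1.ne_zero] at hm
    have h1 := mul_div_of_dvd hm.1.ne_zero hm.2
    simp only [h1]

/-- pairs `(m,l)` with `m l ∣ c` and chains `l ∣ q ∣ c` -/
theorem sum_pair_reindex {M : Type*} [AddCommMonoid M] {c : O} (hc : Primary c) (g : O → O → M) :
    ∑ m ∈ dvs c, ∑ l ∈ (dvs c).filter (fun l => m * l ∣ c), g m l =
      ∑ q ∈ dvs c, ∑ l ∈ dvs q, g (q / l) l := by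
  classical
  rw [sum_sigma', sum_sigma']
  refine sum_bij' (fun x _ => ⟨x.1 * x.2, x.2⟩) (fun y _ => ⟨y.1 / y.2, y.2⟩) ?_ ?_ ?_ ?_ ?_
  · rintro ⟨m, l⟩ hx
    simp only [mem_sigma, mem_filter, mem_dvs hc.ne_zero] at hx ⊢
    obtain ⟨⟨hm, _⟩, ⟨hl, _⟩, h⟩ := hx
    rw [mem_dvs (hm.mul hl).ne_zero]
    exact ⟨⟨hm.mul hl, h⟩, hl, dvd_mul_left _ _⟩
  · rintro ⟨q, l⟩ hy
    simp only [mem_sigma, mem_filter, mem_dvs hc.ne_zero] at hy ⊢
    obtain ⟨⟨hq, hqc⟩, hl⟩ := hy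
    rw [mem_dvs hq.ne_zero] at hl
    have h1 := mul_div_of_dvd hl.1.ne_zero hl.2
    have h2 : Primary (q / l) := hq.quot hl.1 h1.symm
    refine ⟨⟨h2, ?_⟩, ⟨hl.1, hl.2.trans hqc⟩, ?_⟩
    · exact (Dvd.intro_left l h1).trans hqc
    · rw [mul_comm, h1]; exact hqc
  · rintro ⟨m, l⟩ hx
    simp only [mem_sigma, mem_filter, mem_dvs hc.ne_zero] at hx
    obtain ⟨⟨hm, _⟩, ⟨hl, _⟩, h⟩ := hx
    have : m * l / l = m := by rw [mul_comm]; exact mul_div_left hl.ne_zero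
    simp only [this]
  · rintro ⟨q, l⟩ hy
    simp only [mem_sigma, mem_dvs hc.ne_zero] at hy
    obtain ⟨⟨hq, hqc⟩, hl⟩ := hy
    rw [mem_dvs hq.ne_zero] at hl
    have h1 := mul_div_of_dvd hl.1.ne_zero hl.2
    have : q / l * l = q := by rw [mul_comm]; exact h1
    simp only [this]
  · rintro ⟨m, l⟩ hx
    simp only [mem_sigma, mem_filter, mem_dvs hc.ne_zero] at hx
    obtain ⟨⟨hm, _⟩, ⟨hl, _⟩, h⟩ := hx
    have : m * l / l = m := by rw [mul_comm]; exact mul_div_left hl.ne_zero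
    simp only [this]

/-- the coefficient `c_q = ∑_{m l = q, N m ≤ U, N l ≤ V} μ(m) Λ(l)` -/
noncomputable def cq (U V : ℝ) (q : O) : ℝ :=
  ∑ l ∈ dvs q, if (N l : ℝ) ≤ V ∧ (N q : ℝ) ≤ U * N l then - mu q * lamb l else 0

/-- the coefficient `β_b = ∑_{m ∣ b, N m > U} μ(m)` -/
noncomputable def bet (U : ℝ) (b : O) : ℝ :=
  ∑ m ∈ dvs b, if U < (N m : ℝ) then mu m else 0

theorem mu_div_mul_lamb {q l : O} (hq : Primary q) (hl : Primary l) (h : l ∣ q) :
    mu (q / l) * lamb l = - mu q * lamb l := by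
  by_cases hp : Prime l
  · have h1 := mul_div_of_dvd hl.ne_zero h
    have h2 : q / l ≠ 0 := fun h0 => hq.ne_zero (by rw [← h1, h0, mul_zero])
    have h3 := mu_mul hp h2
    rw [h1] at h3
    rw [h3, neg_neg]
  · rw [lamb_of_not_prime hp]; simp

theorem second_eq {c : O} (hc : Primary c) (U V : ℝ) :
    ∑ m ∈ (dvs c).filter (fun m => (N m : ℝ) ≤ U),
      ∑ l ∈ (dvs c).filter (fun l => m * l ∣ c), (if (N l : ℝ) ≤ V then mu m * lamb l else 0)
      = ∑ q ∈ dvs c, cq U V q := by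
  classical
  have h1 : ∑ m ∈ (dvs c).filter (fun m => (N m : ℝ) ≤ U),
      ∑ l ∈ (dvs c).filter (fun l => m * l ∣ c), (if (N l : ℝ) ≤ V then mu m * lamb l else 0)
      = ∑ m ∈ dvs c, ∑ l ∈ (dvs c).filter (fun l => m * l ∣ c),
        (if (N m : ℝ) ≤ U ∧ (N l : ℝ) ≤ V then mu m * lamb l else 0) := by
    rw [sum_filter]
    refine sum_congr rfl fun m _ => ?_
    by_cases h : (N m : ℝ) ≤ U
    · simp [h]
    · simp [h]
  rw [h1, sum_pair_reindex hc (fun m l => if (N m : ℝ) ≤ U ∧ (N l : ℝ) ≤ V then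
    mu m * lamb l else 0)]
  refine sum_congr rfl fun q hq => ?_
  rw [mem_dvs hc.ne_zero] at hq
  rw [cq]
  refine sum_congr rfl fun l hl => ?_
  rw [mem_dvs hq.1.ne_zero] at hl
  have h2 := mul_div_of_dvd hl.1.ne_zero hl.2
  have h3 : (N q : ℝ) = N l * N (q / l) := by
    rw [← Nat.cast_mul, ← N_mul, h2]
  have h4 : (0 : ℝ) < N l := by exact_mod_cast N_pos hl.1.ne_zero
  have h5 : (N (q / l) : ℝ) ≤ U ↔ (N q : ℝ) ≤ U * N l := by
    rw [h3, mul_comm U]
    exact (mul_le_mul_iff_right₀ h4).symm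
  rw [← mu_div_mul_lamb hq.1 hl.1 hl.2]
  simp only [h5, and_comm]

theorem third_eq {c l : O} (hc : Primary c) (hl : Primary l) (k : O) (h : c = l * k) (U : ℝ) :
    ∑ m ∈ (dvs c).filter (fun m => m * l ∣ c), (if U < (N m : ℝ) then mu m * lamb l else 0)
      = lamb l * bet U k := by
  rw [filter_dvs_mul hc hl h, bet, mul_sum]
  refine sum_congr rfl fun m _ => ?_
  split_ifs <;> ring

/-- **Vaughan's identity summed against a weight `W`** supported on squarefree elements. -/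
theorem vaughan_sum (W : O → ℂ) (hW : ∀ c, ¬ Squarefree c → W c = 0) (X U V : ℝ) :
    ∑ c ∈ (PB X).filter (fun c => V < (N c : ℝ)), (lamb c : ℂ) * W c =
      ∑ m ∈ (PB X).filter (fun m => (N m : ℝ) ≤ U), (mu m : ℂ) *
        ∑ n ∈ PB (X / N m), (Real.log (N n) : ℂ) * W (m * n)
      - ∑ q ∈ PB X, (cq U V q : ℂ) * ∑ n ∈ PB (X / N q), W (q * n)
      + ∑ l ∈ (PB X).filter (fun l => V < (N l : ℝ)), (lamb l : ℂ) *
        ∑ b ∈ PB (X / N l), (bet U b : ℂ) * W (l * b) := by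
  classical
  -- pointwise identity
  have key : ∀ c ∈ PB X, ((if V < (N c : ℝ) then lamb c else 0 : ℝ) : ℂ) * W c =
      (∑ m ∈ dvs c, (if (N m : ℝ) ≤ U then (mu m : ℂ) * ((Real.log (N (c / m)) : ℂ) * W c) else 0))
      - ∑ q ∈ dvs c, (cq U V q : ℂ) * W c
      + ∑ l ∈ dvs c, (if V < (N l : ℝ) then (lamb l : ℂ) * ((bet U (c / l) : ℂ) * W c) else 0) := by
    intro c hcX
    rw [mem_PB] at hcX
    by_cases hsq : Squarefree c
    · rw [vaughan hcX.1 hsq U V, second_eq hcX.1 U V]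
      have h1 : ∑ m ∈ (dvs c).filter (fun m => (N m : ℝ) ≤ U),
          mu m * (Real.log (N c) - Real.log (N m)) =
          ∑ m ∈ dvs c, (if (N m : ℝ) ≤ U then mu m * Real.log (N (c / m)) else 0) := by
        rw [sum_filter]
        refine sum_congr rfl fun m hm => ?_
        rw [mem_dvs hcX.1.ne_zero] at hm
        have h2 := mul_div_of_dvd hm.1.ne_zero hm.2
        have h3 : (N c : ℝ) = N m * N (c / m) := by rw [← Nat.cast_mul, ← N_mul, h2]
        have h4 : (N m : ℝ) ≠ 0 := by exact_mod_cast (N_pos hm.1.ne_zero).ne'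
        have h5 : (N (c / m) : ℝ) ≠ 0 := by
          exact_mod_cast (N_pos (hcX.1.quot hm.1 h2.symm).ne_zero).ne'
        rw [h3, Real.log_mul h4 h5, add_sub_cancel_left]
      have h2 : ∑ l ∈ (dvs c).filter (fun l => V < (N l : ℝ)),
          ∑ m ∈ (dvs c).filter (fun m => m * l ∣ c),
            (if U < (N m : ℝ) then mu m * lamb l else 0) =
          ∑ l ∈ dvs c, (if V < (N l : ℝ) then lamb l * bet U (c / l) else 0) := by
        rw [sum_filter]
        refine sum_congr rfl fun l hl => ?_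
        rw [mem_dvs hcX.1.ne_zero] at hl
        have h3 := mul_div_of_dvd hl.1.ne_zero hl.2
        rw [third_eq hcX.1 hl.1 (c / l) h3.symm U]
      rw [h1, h2]
      push_cast
      rw [add_mul, sub_mul, sum_mul, sum_mul, sum_mul]
      congr 1
      · congr 1
        refine sum_congr rfl fun m _ => ?_
        split_ifs
        · push_cast; ring
        · push_cast; ring
      · refine sum_congr rfl fun m _ => ?_
        split_ifs
        · push_cast; ring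
        · push_cast; ring
    · rw [hW c hsq]; simp
  have h0 : ∑ c ∈ (PB X).filter (fun c => V < (N c : ℝ)), (lamb c : ℂ) * W c =
      ∑ c ∈ PB X, ((if V < (N c : ℝ) then lamb c else 0 : ℝ) : ℂ) * W c := by
    rw [sum_filter]
    refine sum_congr rfl fun c _ => ?_
    split_ifs <;> simp
  have hA : ∑ c ∈ PB X, ∑ m ∈ dvs c,
      (if (N m : ℝ) ≤ U then (mu m : ℂ) * ((Real.log (N (c / m)) : ℂ) * W c) else 0) =
      ∑ m ∈ (PB X).filter (fun m => (N m : ℝ) ≤ U), (mu m : ℂ) *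
        ∑ n ∈ PB (X / N m), (Real.log (N n) : ℂ) * W (m * n) := by
    rw [sum_dvs_reindex X (fun m c => if (N m : ℝ) ≤ U then
      (mu m : ℂ) * ((Real.log (N (c / m)) : ℂ) * W c) else 0), sum_filter]
    refine sum_congr rfl fun m hm => ?_
    rw [mem_PB] at hm
    split_ifs with h
    · rw [mul_sum]
      refine sum_congr rfl fun n _ => ?_
      rw [mul_div_left hm.1.ne_zero]
    · exact sum_const_zero
  have hB : ∑ c ∈ PB X, ∑ q ∈ dvs c, (cq U V q : ℂ) * W c =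
      ∑ q ∈ PB X, (cq U V q : ℂ) * ∑ n ∈ PB (X / N q), W (q * n) := by
    rw [sum_dvs_reindex X (fun q c => (cq U V q : ℂ) * W c)]
    refine sum_congr rfl fun q _ => ?_
    rw [mul_sum]
  have hC : ∑ c ∈ PB X, ∑ l ∈ dvs c,
      (if V < (N l : ℝ) then (lamb l : ℂ) * ((bet U (c / l) : ℂ) * W c) else 0) =
      ∑ l ∈ (PB X).filter (fun l => V < (N l : ℝ)), (lamb l : ℂ) *
        ∑ b ∈ PB (X / N l), (bet U b : ℂ) * W (l * b) := by
    rw [sum_dvs_reindex X (fun l c => if V < (N l : ℝ) then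
        (lamb l : ℂ) * ((bet U (c / l) : ℂ) * W c) else 0), sum_filter]
    refine sum_congr rfl fun l hl => ?_
    rw [mem_PB] at hl
    split_ifs with h
    · rw [mul_sum]
      refine sum_congr rfl fun b _ => ?_
      rw [mul_div_left hl.1.ne_zero]
    · exact sum_const_zero
  rw [h0, sum_congr rfl key, sum_add_distrib, sum_sub_distrib, hA, hB, hC]

end Vale.Agent.P006.VR
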