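import Vale.Agent.P006.H845.Order
import Vale.Agent.P006.H103.Reindex
import Mathlib.Analysis.SpecialFunctions.Pow.Real

/-!
P006, block 20a (helper103): statement shapes consumed by the final sieve step
(Vaughan's identity in the semigroup of `X^η`-rough elements).
-/

namespace Vale.Agent.P006

open Finset

/-- Coefficients which, as a function of the strictly largest prime factor, are of bounded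
variation in its norm (helper570's note 1286). -/
structure ClassG (α : O → ℂ) (X G : ℝ) : Prop where
  supp : ∀ a, α a ≠ 0 → Primary a ∧ Squarefree a ∧ (N a : ℝ) ≤ X
  bound : ∀ a, ‖α a‖ ≤ G
  str : ∀ m, Primary m → ∃ v : ℕ → ℂ,
    (∀ n, ‖v n‖ + ∑ j ∈ range n, ‖v j - v (j + 1)‖ ≤ G) ∧
    ∀ p, Prime p → Primary p → (∀ q ∈ pdv m, N q < N p) → α (m * p) = v (N p)

/-- the bilinear sum `∑_{N(ab) ≤ x} α_a β_b w(ab)` -/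
noncomputable def Bil (w α β : O → ℂ) (x : ℝ) : ℂ :=
  ∑ a ∈ PB x, α a * ∑ b ∈ PB (x / N a), β b * w (a * b)

open Classical in
/-- the function `f` cut to squarefree primary `z`-rough elements with `y₁ < N a ≤ y₂` -/
noncomputable def cut (z y₁ y₂ : ℝ) (f : O → ℂ) (a : O) : ℂ :=
  if Primary a ∧ Squarefree a ∧ Rough z a ∧ y₁ < (N a : ℝ) ∧ (N a : ℝ) ≤ y₂ then f a else 0

/-- the density `∏_{p ∣ W} (1 - 1/N p)` -/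
noncomputable def dens (W : O) : ℝ := ∏ p ∈ pdv W, (1 - 1 / (N p : ℝ))

/-- **rough Type I** (TR) -/
def TRHyp (w : O → ℂ) (d η : ℝ) : Prop :=
  ∀ A : ℕ, ∃ C : ℝ, 0 ≤ C ∧ ∀ X : ℝ, 3 ≤ X → ∀ c : O → ℂ, (∀ q, ‖c q‖ ≤ Real.log X) →
    ∀ x : ℝ, x ≤ X → ‖Bil w (cut (X ^ η) 0 (X ^ (1 / 3 + d)) c) (cut (X ^ η) 0 X 1) x‖
      ≤ C * X ^ (5 / 6 : ℝ) / Real.log X ^ A

/-- **interior Type II** (TII) -/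
def TIIHyp (w : O → ℂ) (d κ η : ℝ) : Prop :=
  ∀ A : ℕ, ∃ C : ℝ, 0 ≤ C ∧ ∀ X : ℝ, 3 ≤ X → ∀ G : ℝ, 1 ≤ G → ∀ α β : O → ℂ, ClassG α X G →
    (∀ a, α a ≠ 0 → Rough (X ^ η) a ∧ X ^ (1 / 3 + d) < (N a : ℝ) ∧ (N a : ℝ) ≤ X ^ (1 / 2 - κ)) →
    (∀ b, ‖β b‖ ≤ 1) → (∀ b, β b ≠ 0 → Primary b ∧ Squarefree b ∧ Rough (X ^ η) b) →
    ∀ x : ℝ, x ≤ X → ‖Bil w α β x‖ ≤ C * G * X ^ (5 / 6 : ℝ) / Real.log X ^ A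

/-- **centre, primes** (TIIP) -/
def TIIPHyp (w : O → ℂ) (κ η : ℝ) : Prop :=
  ∀ A : ℕ, ∃ C : ℝ, 0 ≤ C ∧ ∀ X : ℝ, 3 ≤ X → ∀ β : O → ℂ,
    (∀ b, ‖β b‖ ≤ 1) → (∀ b, β b ≠ 0 → Primary b ∧ Squarefree b ∧ Rough (X ^ η) b) →
    ∀ x : ℝ, x ≤ X →
      ‖Bil w (cut (X ^ η) (X ^ (1 / 2 - κ)) (X ^ (1 / 2 + κ)) (fun a => (VR.lamb a : ℂ))) β x‖
        ≤ C * X ^ (5 / 6 : ℝ) / Real.log X ^ A

/-- **centre, products** (TIIB): `VR.cq U V q = ∑_{m l = q, N m ≤ U, N l ≤ V} μ(m) Λ(l)` -/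
def TIIBHyp (w : O → ℂ) (κ η : ℝ) : Prop :=
  ∀ A : ℕ, ∃ C : ℝ, 0 ≤ C ∧ ∀ X : ℝ, 3 ≤ X → ∀ β : O → ℂ,
    (∀ b, ‖β b‖ ≤ 1) → (∀ b, β b ≠ 0 → Primary b ∧ Squarefree b ∧ Rough (X ^ η) b) →
    ∀ x : ℝ, x ≤ X →
      ‖Bil w (cut (X ^ η) (X ^ (1 / 2 - κ)) (X ^ (1 / 2 + κ))
          (fun a => (VR.cq (X ^ (1 / 3 : ℝ)) (X ^ (1 / 3 : ℝ)) a : ℂ))) β x‖
        ≤ C * X ^ (5 / 6 : ℝ) / Real.log X ^ A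

/-- **edge** (EDGE) -/
def EdgeHyp (w : O → ℂ) (d η : ℝ) : Prop :=
  ∃ C₀ : ℝ, 0 ≤ C₀ ∧ ∀ W : O, Primary W → Squarefree W → ∀ A : ℕ, ∃ C : ℝ, 0 ≤ C ∧
    ∀ X : ℝ, 3 ≤ X → ∀ A₀ : ℝ, X ^ (1 / 3 : ℝ) / 4 ≤ A₀ → A₀ ≤ X ^ (1 / 3 + d) →
    ∀ α β : O → ℂ, ClassG α X (Real.log X ^ 2) →
    (∀ a, α a ≠ 0 → Rough (X ^ η) a ∧ A₀ < (N a : ℝ) ∧ (N a : ℝ) ≤ 2 * A₀) →
    (∀ b, ‖β b‖ ≤ Real.log X ^ 2) →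
    (∀ b, β b ≠ 0 → Primary b ∧ Squarefree b ∧ Rough (X ^ η) b ∧ (N b : ℝ) ≤ X / A₀) →
    ∀ x : ℝ, x ≤ X → ‖Bil w α β x‖ ≤
      C₀ * Real.sqrt (dens W) * Real.sqrt ((X / A₀) * (∑ a ∈ SPB (2 * A₀), ‖α a‖ ^ 2) *
        (∑ b ∈ SPB (X / A₀), ‖β b‖ ^ 2))
      + C * X ^ (5 / 6 : ℝ) / Real.log X ^ A

open Classical in
/-- **rough count** -/
def RoughCount (η : ℝ) : Prop :=
  ∃ C : ℝ, 0 ≤ C ∧ ∀ X y : ℝ, 3 ≤ X → X ^ (1 / 4 : ℝ) ≤ y → y ≤ X →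
    (((SPB y).filter (Rough (X ^ η))).card : ℝ) ≤ C * y / Real.log X

/-- **Mertens** -/
def DensZero : Prop := ∀ ε : ℝ, 0 < ε → ∃ W : O, Primary W ∧ Squarefree W ∧ dens W < ε

end Vale.Agent.P006
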