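import Vale.Agent.P006.H103.Pieces

/-!
P006, block 20a (helper103): bounds for the three sums of Vaughan's identity.
-/

namespace Vale.Agent.P006.VR

open Vale.Agent.P006 Finset

theorem classG_mono {α : O → ℂ} {X G G' : ℝ} (h : ClassG α X G) (hG : G ≤ G') : ClassG α X G' :=
  ⟨h.supp, fun a => (h.bound a).trans hG, fun m hm => by
    obtain ⟨v, h1, h2⟩ := h.str m hm
    exact ⟨v, fun n => (h1 n).trans hG, h2⟩⟩

theorem bd_lamb {z X : ℝ} (hX : 1 ≤ X) : Bd z X (fun a => (lamb a : ℂ)) (Real.log X) := by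
  intro a ha _ _ haX
  rw [Complex.norm_real, Real.norm_eq_abs, abs_of_nonneg (lamb_nonneg a)]
  exact (lamb_le a).trans (log_nat_le hX haX)

theorem bd_cq {z X U V : ℝ} (hX : 1 ≤ X) : Bd z X (fun a => (cq U V a : ℂ)) (Real.log X) := by
  intro a ha hsq _ haX
  rw [Complex.norm_real, Real.norm_eq_abs]
  exact (abs_cq_le U V ha hsq).trans (log_nat_le hX haX)

theorem bd_bet {X U η : ℝ} (hX : 1 < X) (hη : 0 < η) :
    Bd (X ^ η) X (fun a => (bet U a : ℂ)) (2 ^ (1 / η)) := by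
  intro a ha hsq hr haX
  rw [Complex.norm_real, Real.norm_eq_abs]
  exact (abs_bet_le U a).trans (tau_rough_le hX hη ha hsq hr haX)

theorem bd_one {z X : ℝ} : Bd z X (1 : O → ℂ) 1 := fun _ _ _ _ _ => by simp

theorem one_le_T {η : ℝ} (hη : 0 < η) : (1 : ℝ) ≤ 2 ^ (1 / η) :=
  Real.one_le_rpow (by norm_num) (by positivity)

/-- relations between the cut points -/
theorem pow_facts {X d κ : ℝ} (hX : 1 < X) (hd : 0 < d) (hκ : 0 < κ)
    (h1 : 1 / 3 + d < 1 / 2 - κ) :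
    X ^ (1 / 3 : ℝ) ≤ X ^ (1 / 3 + d) ∧ X ^ (1 / 3 + d) ≤ X ^ (1 / 2 - κ) ∧
    X ^ (1 / 2 - κ) ≤ X ^ (1 / 2 + κ) ∧ X ^ (1 / 2 + κ) ≤ X ∧
    X / X ^ (1 / 2 + κ) = X ^ (1 / 2 - κ) ∧ X ^ (1 / 2 - κ) ≤ X ∧ X ^ (1 / 3 + d) ≤ X := by
  have hX0 : 0 < X := by linarith
  have e1 : X ^ (1 : ℝ) = X := Real.rpow_one X
  refine ⟨Real.rpow_le_rpow_of_exponent_le hX.le (by linarith),
    Real.rpow_le_rpow_of_exponent_le hX.le (by linarith),
    Real.rpow_le_rpow_of_exponent_le hX.le (by linarith), ?_, ?_, ?_, ?_⟩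
  · conv_rhs => rw [← e1]
    exact Real.rpow_le_rpow_of_exponent_le hX.le (by linarith)
  · rw [div_eq_iff (by positivity), ← Real.rpow_add hX0]
    rw [show 1 / 2 - κ + (1 / 2 + κ) = 1 by ring, e1]
  · conv_rhs => rw [← e1]
    exact Real.rpow_le_rpow_of_exponent_le hX.le (by linarith)
  · conv_rhs => rw [← e1]
    exact Real.rpow_le_rpow_of_exponent_le hX.le (by linarith)

theorem s1_bound {w : O → ℂ} (hw : SqSupp w) {d η : ℝ} (hd : 0 < d) (hd1 : 1 / 3 + d < 1 / 2)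
    (TR : TRH w d η) : ∃ C : ℝ, 0 ≤ C ∧ ∀ X : ℝ, 3 ≤ X → 32 ≤ Real.log X →
    ‖∑ m ∈ (PB X).filter (fun m => (N m : ℝ) ≤ X ^ (1 / 3 : ℝ)), (mu m : ℂ) *
        ∑ n ∈ PB (X / N m), (Real.log (N n) : ℂ) * cut (X ^ η) 0 X w (m * n)
      - ∑ m ∈ (PB (X / 2)).filter (fun m => (N m : ℝ) ≤ X ^ (1 / 3 : ℝ)), (mu m : ℂ) *
        ∑ n ∈ PB ((X / 2) / N m), (Real.log (N n) : ℂ) * cut (X ^ η) 0 X w (m * n)‖ ≤
      C * X ^ (5 / 6 : ℝ) / Real.log X := by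
  obtain ⟨C, hC, h⟩ := tr_apply TR 2
  refine ⟨12 * C, by positivity, ?_⟩
  intro X hX hL
  have hX1 : 1 < X := by linarith
  have hX0 : 0 < X := by linarith
  have hL0 : 0 < Real.log X := by linarith
  have hU1 : X ^ (1 / 3 : ℝ) ≤ X ^ (1 / 3 + d) :=
    Real.rpow_le_rpow_of_exponent_le hX1.le (by linarith)
  have hY1 : X ^ (1 / 3 + d) ≤ X := by
    conv_rhs => rw [← Real.rpow_one X]
    exact Real.rpow_le_rpow_of_exponent_le hX1.le (by linarith)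
  rw [s1_eq hw (hU1.trans hY1) le_rfl, s1_eq hw (hU1.trans hY1) (by linarith : X / 2 ≤ X)]
  have hB1 : ∀ t, X / 2 ≤ t → t ≤ X → ‖Bil w (cut (X ^ η) 0 (X ^ (1 / 3 : ℝ))
      (fun a => (mu a : ℂ))) (cut (X ^ η) 0 X 1) t‖ ≤
      C * 2 * X ^ (5 / 6 : ℝ) / Real.log X ^ 2 := fun t ht2 ht =>
    h X hX 2 (by norm_num) _ _ hU1 (classG_mu (hU1.trans hY1)) t ht2 ht
  have hB2 : ∀ t, X / 2 ≤ t → t ≤ X → ‖Bil w (cut (X ^ η) 0 (X ^ (1 / 3 : ℝ))
      (fun a => (mu a : ℂ) * (Real.log (N a) : ℂ))) (cut (X ^ η) 0 X 1) t‖ ≤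
      C * (2 * Real.log X) * X ^ (5 / 6 : ℝ) / Real.log X ^ 2 := fun t ht2 ht =>
    h X hX (2 * Real.log X) (by linarith) _ _ hU1 (classG_mulog hX1.le (hU1.trans hY1)) t ht2 ht
  have hB3 := Bil_log_diff w _ _ hX1.le (by linarith : X / 2 ≤ X) (by positivity) hB1
  have e : ∀ a b c e : ℂ, (a - b) - (c - e) = (a - c) - (b - e) := by intro a b c e; ring
  rw [e]
  calc _ ≤ _ := norm_sub_le _ _
    _ ≤ 2 * Real.log X * (2 * (C * 2 * X ^ (5 / 6 : ℝ) / Real.log X ^ 2))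
        + (C * (2 * Real.log X) * X ^ (5 / 6 : ℝ) / Real.log X ^ 2
          + C * (2 * Real.log X) * X ^ (5 / 6 : ℝ) / Real.log X ^ 2) :=
        add_le_add hB3 ((norm_sub_le _ _).trans (add_le_add (hB2 _ (by linarith) le_rfl)
          (hB2 _ le_rfl (by linarith))))
    _ = 12 * C * X ^ (5 / 6 : ℝ) / Real.log X := by field_simp; ring

/-- the third sum -/
theorem s3_bound {w : O → ℂ} {d κ η : ℝ} (hd : 0 < d) (hκ : 0 < κ) (hη : 0 < η)
    (h1 : 1 / 3 + d < 1 / 2 - κ)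
    (T2 : TIIH w d κ η) (TP : TIIPH w κ η) (hE : EdgeH w d η) (hR : RoughCount η) :
    ∃ C₁ : ℝ, 0 ≤ C₁ ∧ ∀ W : O, Primary W → Squarefree W → ∃ C : ℝ, 0 ≤ C ∧
      ∀ X : ℝ, 3 ≤ X → 32 ≤ Real.log X → 4 * 2 ^ (1 / η) ≤ Real.log X →
      ∀ x : ℝ, X / 2 ≤ x → x ≤ X →
      ‖Bil w (cut (X ^ η) (X ^ (1 / 3 : ℝ)) X (fun a => (lamb a : ℂ)))
        (cut (X ^ η) 0 X (fun b => (bet (X ^ (1 / 3 : ℝ)) b : ℂ))) x‖ ≤
      C₁ * Real.sqrt (dens W) * X ^ (5 / 6 : ℝ) + C * X ^ (5 / 6 : ℝ) / Real.log X := by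
  obtain ⟨C₁, hC₁, hE⟩ := edge_sum hd (by linarith) hE hR
  set T : ℝ := 2 ^ (1 / η) with hT
  have hT1 : 1 ≤ T := one_le_T hη
  refine ⟨2 * C₁ * T, by positivity, ?_⟩
  intro W hW1 hW2
  obtain ⟨CE, hCE, hE⟩ := hE W hW1 hW2 1
  obtain ⟨C2, hC2, T2⟩ := tii_apply T2 2
  obtain ⟨CP, hCP, TP⟩ := tiip_apply TP 1
  refine ⟨2 * CE + 6 * C2 * T + CP * T, by positivity, ?_⟩
  intro X hX hL hTL x hx2 hx
  have hX1 : 1 < X := by linarith
  have hX0 : 0 < X := by linarith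
  have hL0 : 0 < Real.log X := by linarith
  obtain ⟨p1, p2, p3, p4, p5, p6, p7⟩ := pow_facts hX1 hd hκ h1
  have hX13 : 0 < X ^ (1 / 3 : ℝ) := by positivity
  set U := X ^ (1 / 3 : ℝ) with hU
  set Y1 := X ^ (1 / 3 + d) with hY1
  set Y2 := X ^ (1 / 2 - κ) with hY2
  set Y3 := X ^ (1 / 2 + κ) with hY3
  set z := X ^ η with hz
  set L := Real.log X with hLdef
  have hTL2 : T ≤ L ^ 2 := by nlinarith
  have hLL2 : L ≤ L ^ 2 := by nlinarith
  -- split the outer variable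
  have e1 : Bil w (cut z U X (fun a => (lamb a : ℂ))) (cut z 0 X (fun b => (bet U b : ℂ))) x =
      Bil w (cut z U Y1 (fun a => (lamb a : ℂ))) (cut z 0 X (fun b => (bet U b : ℂ))) x +
      (Bil w (cut z Y1 Y2 (fun a => (lamb a : ℂ))) (cut z 0 X (fun b => (bet U b : ℂ))) x +
      (Bil w (cut z Y2 Y3 (fun a => (lamb a : ℂ))) (cut z 0 X (fun b => (bet U b : ℂ))) x +
      Bil w (cut z Y3 X (fun a => (lamb a : ℂ))) (cut z 0 X (fun b => (bet U b : ℂ))) x)) := by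
    rw [Bil_split p1 (p2.trans (p3.trans p4)), Bil_split p2 (p3.trans p4), Bil_split p3 p4]
  -- last piece
  have e2 : Bil w (cut z Y3 X (fun a => (lamb a : ℂ))) (cut z 0 X (fun b => (bet U b : ℂ))) x =
      Bil w (cut z U Y1 (fun b => (bet U b : ℂ))) (cut z Y3 X (fun a => (lamb a : ℂ))) x +
      Bil w (cut z Y1 Y2 (fun b => (bet U b : ℂ))) (cut z Y3 X (fun a => (lamb a : ℂ))) x := by
    rw [Bil_restrict hx (by positivity) p5.le p6, Bil_comm,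
      Bil_split hX13.le (p1.trans p2), Bil_split p1 p2]
    have : Bil w (cut z 0 U (fun b => (bet U b : ℂ))) (cut z Y3 X (fun a => (lamb a : ℂ))) x = 0 := by
      refine Bil_eq_zero fun a b ha hb _ => ?_
      by_cases h : cut z 0 U (fun b => (bet U b : ℂ)) a = 0
      · rw [h]; simp
      · have h3 := cut_ne h
        rw [cut_of h3, bet_eq_zero ha h3.2.2.2.2]; simp
    rw [this, zero_add]
  have b1 := hE X hX hL U (by linarith) (fun a => (lamb a : ℂ)) (fun b => (bet U b : ℂ))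
    (fun y y₂ hy => classG_mono (classG_lamb hX1.le hy) (by nlinarith)) L T T 0 hL0.le
    (by linarith) hTL2 (bd_lamb hX1.le) (bd_bet hX1 hη) (by linarith) x hx2 hx
  have b2 := T2 X hX (2 * L) T (by linarith) (by linarith) (fun a => (lamb a : ℂ))
    (fun b => (bet U b : ℂ)) 0 X (classG_lamb hX1.le p6) le_rfl (bd_bet hX1 hη) x hx2 hx
  have b3 := TP X hX T (by linarith) (fun b => (bet U b : ℂ)) 0 X le_rfl (bd_bet hX1 hη) x hx2 hx
  have b4 := hE X hX hL U (by linarith) (fun b => (bet U b : ℂ)) (fun a => (lamb a : ℂ))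
    (fun y y₂ hy => classG_mono (classG_bet hX1 hη hy) (by nlinarith)) T L T Y3 (by linarith)
    hL0.le hLL2 (bd_bet hX1 hη) (bd_lamb hX1.le) le_rfl x hx2 hx
  have b5 := T2 X hX (4 * T) L (by linarith) hL0 (fun b => (bet U b : ℂ))
    (fun a => (lamb a : ℂ)) Y3 X (classG_bet hX1 hη p6) le_rfl (bd_lamb hX1.le) x hx2 hx
  rw [e1, e2]
  refine (norm_add_le _ _).trans ((add_le_add b1 ((norm_add_le _ _).trans (add_le_add b2
    ((norm_add_le _ _).trans (add_le_add b3 ((norm_add_le _ _).trans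
      (add_le_add b4 b5))))))).trans (le_of_eq ?_))
  rw [← hLdef]
  field_simp
  ring

/-- the second sum, up to a part that does not depend on `x ∈ [X/2, X]` -/
theorem s2_bound {w : O → ℂ} {d κ η : ℝ} (hd : 0 < d) (hκ : 0 < κ)
    (h1 : 1 / 3 + d < 1 / 2 - κ)
    (TR : TRH w d η) (T2 : TIIH w d κ η) (TB : TIIBH w κ η) (hE : EdgeH w d η)
    (hR : RoughCount η) :
    ∃ C₁ : ℝ, 0 ≤ C₁ ∧ ∀ W : O, Primary W → Squarefree W → ∃ C : ℝ, 0 ≤ C ∧
      ∀ X : ℝ, 3 ≤ X → 32 ≤ Real.log X → ∃ E : ℂ, ∀ x : ℝ, X / 2 ≤ x → x ≤ X →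
      ‖Bil w (cut (X ^ η) 0 X (fun a => (cq (X ^ (1 / 3 : ℝ)) (X ^ (1 / 3 : ℝ)) a : ℂ)))
        (cut (X ^ η) 0 X 1) x - E‖ ≤
      C₁ * Real.sqrt (dens W) * X ^ (5 / 6 : ℝ) + C * X ^ (5 / 6 : ℝ) / Real.log X := by
  obtain ⟨C₁, hC₁, hE⟩ := edge_sum hd (by linarith) hE hR
  refine ⟨C₁, by positivity, ?_⟩
  intro W hW1 hW2
  obtain ⟨CE, hCE, hE⟩ := hE W hW1 hW2 1
  obtain ⟨C0, hC0, TR⟩ := tr_apply TR 2
  obtain ⟨C2, hC2, T2⟩ := tii_apply T2 2
  obtain ⟨CB, hCB, TB⟩ := tiib_apply TB 1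
  refine ⟨CE + 4 * C0 + 6 * C2 + CB, by positivity, ?_⟩
  intro X hX hL
  have hX1 : 1 < X := by linarith
  have hX0 : 0 < X := by linarith
  have hL0 : 0 < Real.log X := by linarith
  obtain ⟨p1, p2, p3, p4, p5, p6, p7⟩ := pow_facts hX1 hd hκ h1
  have hX13 : 0 < X ^ (1 / 3 : ℝ) := by positivity
  have hUUU : X ^ (1 / 3 : ℝ) * (X ^ (1 / 3 : ℝ) * X ^ (1 / 3 : ℝ)) = X := by
    rw [← Real.rpow_add hX0, ← Real.rpow_add hX0]; norm_num
  set U := X ^ (1 / 3 : ℝ) with hU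
  set Y1 := X ^ (1 / 3 + d) with hY1
  set Y2 := X ^ (1 / 2 - κ) with hY2
  set Y3 := X ^ (1 / 2 + κ) with hY3
  set z := X ^ η with hz
  set L := Real.log X with hLdef
  have hLL2 : L ≤ L ^ 2 := by nlinarith
  set cqf : O → ℂ := fun a => (cq U U a : ℂ) with hcq
  refine ⟨Bil w (cut z 0 (U / 2) 1) (cut z Y3 X cqf) X, ?_⟩
  intro x hx2 hx
  have e0 : Bil w (cut z 0 (U / 2) 1) (cut z Y3 X cqf) x =
      Bil w (cut z 0 (U / 2) 1) (cut z Y3 X cqf) X := by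
    refine Bil_eq_of_supp (A := U / 2) (B := U * U) (by positivity) ?_ ?_ ?_ hx
    · intro a ha; exact (cut_ne ha).2.2.2.2
    · intro b hb
      have h3 := cut_ne hb
      by_contra h4
      rw [cut_of h3] at hb
      apply hb
      simp only [hcq]
      rw [cq_eq_zero hX13.le (not_le.1 h4)]; simp
    · calc U / 2 * (U * U) = U * (U * U) / 2 := by ring
        _ = X / 2 := by rw [hUUU]
        _ ≤ x := hx2
  -- split the outer variable
  have e1 : Bil w (cut z 0 X cqf) (cut z 0 X 1) x =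
      Bil w (cut z 0 Y1 cqf) (cut z 0 X 1) x +
      (Bil w (cut z Y1 Y2 cqf) (cut z 0 X 1) x +
      (Bil w (cut z Y2 Y3 cqf) (cut z 0 X 1) x +
      Bil w (cut z Y3 X cqf) (cut z 0 X 1) x)) := by
    rw [Bil_split (hX13.le.trans p1) (p2.trans (p3.trans p4)), Bil_split p2 (p3.trans p4),
      Bil_split p3 p4]
  -- last piece
  have e2 : Bil w (cut z Y3 X cqf) (cut z 0 X 1) x =
      Bil w (cut z 0 (U / 2) 1) (cut z Y3 X cqf) X +
      (Bil w (cut z (U / 2) Y1 1) (cut z Y3 X cqf) x +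
      Bil w (cut z Y1 Y2 1) (cut z Y3 X cqf) x) := by
    rw [Bil_restrict hx (by positivity) p5.le p6, Bil_comm,
      Bil_split (y₂ := U / 2) (by positivity) (by linarith),
      Bil_split (y₁ := U / 2) (y₂ := Y1) (by linarith) p2, e0]
  have b1 := TR X hX (4 * L) (by linarith) cqf Y1 le_rfl (classG_cq hX1.le p7) x hx2 hx
  have b2 := T2 X hX (4 * L) 1 (by linarith) (by norm_num) cqf
    1 0 X (classG_cq hX1.le p6) le_rfl bd_one x hx2 hx
  have b3 := TB X hX x hx2 hx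
  have b4 := hE X hX hL (U / 2) (by linarith) 1 cqf
    (fun y y₂ hy => classG_mono (classG_one hy) (by nlinarith)) 1 L 1 Y3 (by norm_num)
    hL0.le hLL2 bd_one (bd_cq hX1.le) le_rfl x hx2 hx
  have b5 := T2 X hX 2 L (by norm_num) hL0 1
    cqf Y3 X (classG_one p6) le_rfl (bd_cq hX1.le) x hx2 hx
  rw [e1, e2]
  have e3 : ∀ a b c e f g : ℂ, a + (b + (c + (e + (f + g)))) - e = a + (b + (c + (f + g))) := by
    intro a b c e f g; ring
  rw [e3]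
  refine (norm_add_le _ _).trans ((add_le_add b1 ((norm_add_le _ _).trans (add_le_add b2
    ((norm_add_le _ _).trans (add_le_add b3 ((norm_add_le _ _).trans
      (add_le_add b4 b5))))))).trans (le_of_eq ?_))
  rw [← hLdef]
  field_simp
  ring

end Vale.Agent.P006.VR
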