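import Vale.Agent.P006.H103.Defs

/-!
P006, block 20a (helper103): the hypotheses of the final sieve theorem in their weakest form
(`X/2 ≤ x ≤ X`, rough Type I only for coefficients in `ClassG`).
-/

namespace Vale.Agent.P006

open Finset

/-- **rough Type I** for coefficients in `ClassG` (same shape as helper577's `SV.TRG`) -/
def TRH (w : O → ℂ) (d η : ℝ) : Prop :=
  ∀ A : ℕ, ∃ C : ℝ, 0 ≤ C ∧ ∀ X : ℝ, 3 ≤ X → ∀ G : ℝ, 1 ≤ G → ∀ c : O → ℂ, ClassG c X G →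
    ∀ x : ℝ, X / 2 ≤ x → x ≤ X →
      ‖Bil w (cut (X ^ η) 0 (X ^ (1 / 3 + d)) c) (cut (X ^ η) 0 X 1) x‖
        ≤ C * G * X ^ (5 / 6 : ℝ) / Real.log X ^ A

/-- **interior Type II** -/
def TIIH (w : O → ℂ) (d κ η : ℝ) : Prop :=
  ∀ A : ℕ, ∃ C : ℝ, 0 ≤ C ∧ ∀ X : ℝ, 3 ≤ X → ∀ G : ℝ, 1 ≤ G → ∀ α β : O → ℂ, ClassG α X G →
    (∀ a, α a ≠ 0 → Rough (X ^ η) a ∧ X ^ (1 / 3 + d) < (N a : ℝ) ∧ (N a : ℝ) ≤ X ^ (1 / 2 - κ)) →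
    (∀ b, ‖β b‖ ≤ 1) → (∀ b, β b ≠ 0 → Primary b ∧ Squarefree b ∧ Rough (X ^ η) b) →
    ∀ x : ℝ, X / 2 ≤ x → x ≤ X → ‖Bil w α β x‖ ≤ C * G * X ^ (5 / 6 : ℝ) / Real.log X ^ A

/-- **centre, primes** -/
def TIIPH (w : O → ℂ) (κ η : ℝ) : Prop :=
  ∀ A : ℕ, ∃ C : ℝ, 0 ≤ C ∧ ∀ X : ℝ, 3 ≤ X → ∀ β : O → ℂ,
    (∀ b, ‖β b‖ ≤ 1) → (∀ b, β b ≠ 0 → Primary b ∧ Squarefree b ∧ Rough (X ^ η) b) →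
    ∀ x : ℝ, X / 2 ≤ x → x ≤ X →
      ‖Bil w (cut (X ^ η) (X ^ (1 / 2 - κ)) (X ^ (1 / 2 + κ)) (fun a => (VR.lamb a : ℂ))) β x‖
        ≤ C * X ^ (5 / 6 : ℝ) / Real.log X ^ A

/-- **centre, products** -/
def TIIBH (w : O → ℂ) (κ η : ℝ) : Prop :=
  ∀ A : ℕ, ∃ C : ℝ, 0 ≤ C ∧ ∀ X : ℝ, 3 ≤ X → ∀ β : O → ℂ,
    (∀ b, ‖β b‖ ≤ 1) → (∀ b, β b ≠ 0 → Primary b ∧ Squarefree b ∧ Rough (X ^ η) b) →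
    ∀ x : ℝ, X / 2 ≤ x → x ≤ X →
      ‖Bil w (cut (X ^ η) (X ^ (1 / 2 - κ)) (X ^ (1 / 2 + κ))
          (fun a => (VR.cq (X ^ (1 / 3 : ℝ)) (X ^ (1 / 3 : ℝ)) a : ℂ))) β x‖
        ≤ C * X ^ (5 / 6 : ℝ) / Real.log X ^ A

/-- **edge** -/
def EdgeH (w : O → ℂ) (d η : ℝ) : Prop :=
  ∃ C₀ : ℝ, 0 ≤ C₀ ∧ ∀ W : O, Primary W → Squarefree W → ∀ A : ℕ, ∃ C : ℝ, 0 ≤ C ∧
    ∀ X : ℝ, 3 ≤ X → ∀ A₀ : ℝ, X ^ (1 / 3 : ℝ) / 4 ≤ A₀ → A₀ ≤ X ^ (1 / 3 + d) →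
    ∀ α β : O → ℂ, ClassG α X (Real.log X ^ 2) →
    (∀ a, α a ≠ 0 → Rough (X ^ η) a ∧ A₀ < (N a : ℝ) ∧ (N a : ℝ) ≤ 2 * A₀) →
    (∀ b, ‖β b‖ ≤ Real.log X ^ 2) →
    (∀ b, β b ≠ 0 → Primary b ∧ Squarefree b ∧ Rough (X ^ η) b ∧ (N b : ℝ) ≤ X / A₀) →
    ∀ x : ℝ, X / 2 ≤ x → x ≤ X → ‖Bil w α β x‖ ≤
      C₀ * Real.sqrt (dens W) * Real.sqrt ((X / A₀) * (∑ a ∈ SPB (2 * A₀), ‖α a‖ ^ 2) *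
        (∑ b ∈ SPB (X / A₀), ‖β b‖ ^ 2))
      + C * X ^ (5 / 6 : ℝ) / Real.log X ^ A

theorem TIIH.of {w : O → ℂ} {d κ η : ℝ} (h : TIIHyp w d κ η) : TIIH w d κ η := by
  intro A
  obtain ⟨C, hC, h⟩ := h A
  exact ⟨C, hC, fun X hX G hG α β h1 h2 h3 h4 x _ hx => h X hX G hG α β h1 h2 h3 h4 x hx⟩

theorem TIIPH.of {w : O → ℂ} {κ η : ℝ} (h : TIIPHyp w κ η) : TIIPH w κ η := by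
  intro A
  obtain ⟨C, hC, h⟩ := h A
  exact ⟨C, hC, fun X hX β h1 h2 x _ hx => h X hX β h1 h2 x hx⟩

theorem TIIBH.of {w : O → ℂ} {κ η : ℝ} (h : TIIBHyp w κ η) : TIIBH w κ η := by
  intro A
  obtain ⟨C, hC, h⟩ := h A
  exact ⟨C, hC, fun X hX β h1 h2 x _ hx => h X hX β h1 h2 x hx⟩

theorem EdgeH.of {w : O → ℂ} {d η : ℝ} (h : EdgeHyp w d η) : EdgeH w d η := by
  obtain ⟨C₀, hC₀, h⟩ := h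
  refine ⟨C₀, hC₀, fun W h1 h2 A => ?_⟩
  obtain ⟨C, hC, h⟩ := h W h1 h2 A
  exact ⟨C, hC, fun X hX A₀ h1 h2 α β h3 h4 h5 h6 x _ hx => h X hX A₀ h1 h2 α β h3 h4 h5 h6 x hx⟩

end Vale.Agent.P006
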