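import Vale.Agent.P006.H103.Mem2
import Vale.Agent.P006.H103.Defs2

/-!
P006, block 20a (helper103): algebra of the bilinear sums `Bil` and partial summation.
-/

namespace Vale.Agent.P006.VR

open Vale.Agent.P006 Finset

/-! ### Abel summation -/

theorem sum_filter_range_sub (g : ℕ → ℂ) (m n : ℕ) :
    ∑ k ∈ range n, (if m ≤ k then g k - g (k + 1) else 0) = if m ≤ n then g m - g n else 0 := by
  induction n with
  | zero =>
    rcases Nat.eq_zero_or_pos m with h | h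
    · subst h; simp
    · simp [Nat.not_le.2 h]
  | succ n ih =>
    rw [sum_range_succ, ih]
    rcases lt_trichotomy m (n + 1) with h | h | h
    · have h1 : m ≤ n := by omega
      rw [if_pos h1, if_pos h1, if_pos (by omega)]; ring
    · subst h; simp
    · rw [if_neg (by omega), if_neg (by omega), if_neg (by omega)]; ring

theorem abel_sum {ι : Type*} (s : Finset ι) (ν : ι → ℕ) (u : ι → ℂ) (g : ℕ → ℂ) (n : ℕ)
    (h : ∀ i ∈ s, ν i ≤ n) :
    ∑ i ∈ s, g (ν i) * u i = g n * ∑ i ∈ s, u i +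
      ∑ k ∈ range n, (g k - g (k + 1)) * ∑ i ∈ s with ν i ≤ k, u i := by
  have h1 : ∑ k ∈ range n, (g k - g (k + 1)) * ∑ i ∈ s with ν i ≤ k, u i =
      ∑ i ∈ s, (g (ν i) - g n) * u i := by
    have h2 : ∀ k ∈ range n, (g k - g (k + 1)) * ∑ i ∈ s with ν i ≤ k, u i =
        ∑ i ∈ s, (if ν i ≤ k then g k - g (k + 1) else 0) * u i := by
      intro k _
      rw [sum_filter, mul_sum]
      refine sum_congr rfl fun i _ => ?_
      split_ifs <;> simp
    rw [sum_congr rfl h2, sum_comm]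
    refine sum_congr rfl fun i hi => ?_
    rw [← sum_mul, sum_filter_range_sub, if_pos (h i hi)]
  rw [h1, mul_sum, ← sum_add_distrib]
  refine sum_congr rfl fun i _ => ?_
  ring

theorem abel_bound {ι : Type*} (s : Finset ι) (ν : ι → ℕ) (u : ι → ℂ) {g : ℕ → ℂ} {G M : ℝ}
    (hg : BV g G) (hM0 : 0 ≤ M) (hM : ∀ k : ℕ, ‖∑ i ∈ s with ν i ≤ k, u i‖ ≤ M) :
    ‖∑ i ∈ s, g (ν i) * u i‖ ≤ G * M := by
  classical
  obtain ⟨n, hn⟩ : ∃ n, ∀ i ∈ s, ν i ≤ n := ⟨s.sup ν, fun i hi => le_sup (f := ν) hi⟩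
  rw [abel_sum s ν u g n hn]
  have h1 : ‖∑ i ∈ s, u i‖ ≤ M := by
    have := hM n
    rwa [filter_true_of_mem hn] at this
  calc ‖g n * ∑ i ∈ s, u i + ∑ k ∈ range n, (g k - g (k + 1)) * ∑ i ∈ s with ν i ≤ k, u i‖
      ≤ ‖g n * ∑ i ∈ s, u i‖ + ‖∑ k ∈ range n, (g k - g (k + 1)) * ∑ i ∈ s with ν i ≤ k, u i‖ :=
        norm_add_le _ _
    _ ≤ ‖g n‖ * M + ∑ k ∈ range n, ‖g k - g (k + 1)‖ * M := by
        refine add_le_add ?_ ?_
        · rw [norm_mul]; exact mul_le_mul_of_nonneg_left h1 (norm_nonneg _)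
        · refine (norm_sum_le _ _).trans (sum_le_sum fun k _ => ?_)
          rw [norm_mul]; exact mul_le_mul_of_nonneg_left (hM k) (norm_nonneg _)
    _ = (‖g n‖ + ∑ k ∈ range n, ‖g k - g (k + 1)‖) * M := by rw [← sum_mul]; ring
    _ ≤ G * M := mul_le_mul_of_nonneg_right (hg n) hM0

/-- a nonnegative nonincreasing function -/
theorem BV.of_anti {g : ℕ → ℝ} (h0 : ∀ n, 0 ≤ g n) (h : ∀ n, g (n + 1) ≤ g n) :
    BV (fun n => (g n : ℂ)) (g 0) := by
  intro n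
  have key : ∑ j ∈ range n, ‖((g j : ℝ) : ℂ) - ((g (j + 1) : ℝ) : ℂ)‖ = g 0 - g n := by
    induction n with
    | zero => simp
    | succ n ih =>
      rw [sum_range_succ, ih, ← Complex.ofReal_sub, Complex.norm_real, Real.norm_eq_abs,
        abs_of_nonneg (by linarith [h n])]
      ring
  rw [key, Complex.norm_real, Real.norm_eq_abs, abs_of_nonneg (h0 n)]
  linarith

/-! ### algebra of `Bil` -/

/-- `w` is supported on squarefree primary elements -/
def SqSupp (w : O → ℂ) : Prop := ∀ c, w c ≠ 0 → Primary c ∧ Squarefree c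

theorem Bil_congr {w w' α α' β β' : O → ℂ} {x : ℝ}
    (h : ∀ a b, Primary a → Primary b → ((N (a * b) : ℕ) : ℝ) ≤ x →
      α a * β b * w (a * b) = α' a * β' b * w' (a * b)) : Bil w α β x = Bil w' α' β' x := by
  unfold Bil
  refine sum_congr rfl fun a ha => ?_
  rw [mem_PB] at ha
  rw [mul_sum, mul_sum]
  refine sum_congr rfl fun b hb => ?_
  rw [mem_PB_div ha.1] at hb
  rw [← mul_assoc, ← mul_assoc]
  exact h a b ha.1 hb.1 hb.2

theorem Bil_eq_zero {w α β : O → ℂ} {x : ℝ}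
    (h : ∀ a b, Primary a → Primary b → ((N (a * b) : ℕ) : ℝ) ≤ x →
      α a * β b * w (a * b) = 0) : Bil w α β x = 0 := by
  rw [Bil_congr (w' := fun _ => 0) (α' := fun _ => 0) (β' := fun _ => 0)]
  · simp [Bil]
  · intro a b ha hb hab
    rw [h a b ha hb hab]; simp

theorem N_le_N_mul_left {a b : O} (hb : Primary b) : (N a : ℝ) ≤ ((N (a * b) : ℕ) : ℝ) := by
  rw [N_mul]; push_cast
  have := one_le_N hb
  have : (0 : ℝ) ≤ N a := by positivity
  nlinarith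

theorem N_le_N_mul_right {a b : O} (ha : Primary a) : (N b : ℝ) ≤ ((N (a * b) : ℕ) : ℝ) := by
  rw [mul_comm]; exact N_le_N_mul_left ha

open Classical in
theorem Bil_eq_sum2 (w α β : O → ℂ) {x Y : ℝ} (h : x ≤ Y) :
    Bil w α β x = ∑ a ∈ PB Y, ∑ b ∈ PB Y,
      if ((N (a * b) : ℕ) : ℝ) ≤ x then α a * β b * w (a * b) else 0 := by
  unfold Bil
  have h1 : ∀ a ∈ PB Y, (∑ b ∈ PB Y,
      if ((N (a * b) : ℕ) : ℝ) ≤ x then α a * β b * w (a * b) else 0) =
      α a * ∑ b ∈ PB (x / N a), β b * w (a * b) := by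
    intro a ha
    rw [mem_PB] at ha
    rw [← sum_filter, mul_sum]
    have h2 : (PB Y).filter (fun b => ((N (a * b) : ℕ) : ℝ) ≤ x) = PB (x / N a) := by
      ext b
      rw [mem_filter, mem_PB, mem_PB_div ha.1]
      constructor
      · rintro ⟨⟨h3, _⟩, h4⟩; exact ⟨h3, h4⟩
      · rintro ⟨h3, h4⟩
        exact ⟨⟨h3, ((N_le_N_mul_right ha.1).trans h4).trans h⟩, h4⟩
    rw [h2]
    exact sum_congr rfl fun b _ => by ring
  rw [sum_congr rfl h1]
  refine sum_subset (PB_mono h) ?_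
  intro a ha hax
  rw [mem_PB] at ha hax
  have h3 : x < N a := by
    by_contra h4
    exact hax ⟨ha.1, not_lt.1 h4⟩
  have h4 : PB (x / N a) = ∅ := by
    apply PB_eq_empty
    rw [div_lt_one (by exact_mod_cast N_pos ha.1.ne_zero)]
    exact h3
  rw [h4]; simp

theorem Bil_comm (w α β : O → ℂ) (x : ℝ) : Bil w α β x = Bil w β α x := by
  classical
  rw [Bil_eq_sum2 w α β le_rfl, Bil_eq_sum2 w β α le_rfl, sum_comm]
  refine sum_congr rfl fun a _ => sum_congr rfl fun b _ => ?_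
  rw [mul_comm b a, mul_comm (α b) (β a)]

/-- the sum does not change between `x₁` and `x₂` if the supports are short -/
theorem Bil_eq_of_supp {w α β : O → ℂ} {A B x₁ x₂ : ℝ} (hA0 : 0 ≤ A)
    (hα : ∀ a, α a ≠ 0 → (N a : ℝ) ≤ A) (hβ : ∀ b, β b ≠ 0 → (N b : ℝ) ≤ B)
    (h1 : A * B ≤ x₁) (h2 : x₁ ≤ x₂) : Bil w α β x₁ = Bil w α β x₂ := by
  classical
  rw [Bil_eq_sum2 w α β h2, Bil_eq_sum2 w α β le_rfl]
  refine sum_congr rfl fun a _ => sum_congr rfl fun b _ => ?_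
  by_cases ha : α a = 0
  · simp [ha]
  by_cases hb : β b = 0
  · simp [hb]
  have h3 : ((N (a * b) : ℕ) : ℝ) ≤ x₁ := by
    rw [N_mul]; push_cast
    refine le_trans ?_ h1
    exact mul_le_mul (hα a ha) (hβ b hb) (by positivity) hA0
  rw [if_pos h3, if_pos (h3.trans h2)]

theorem Bil_add_left (w α α' β : O → ℂ) (x : ℝ) :
    Bil w (fun a => α a + α' a) β x = Bil w α β x + Bil w α' β x := by
  unfold Bil
  rw [← sum_add_distrib]
  exact sum_congr rfl fun a _ => by ring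

theorem Bil_smul_left (w α β : O → ℂ) (c : ℂ) (x : ℝ) :
    Bil w (fun a => c * α a) β x = c * Bil w α β x := by
  unfold Bil
  rw [mul_sum]
  exact sum_congr rfl fun a _ => by ring

theorem Bil_smul_right (w α β : O → ℂ) (c : ℂ) (x : ℝ) :
    Bil w α (fun a => c * β a) x = c * Bil w α β x := by
  rw [Bil_comm, Bil_smul_left, Bil_comm]

/-- partial summation inside `Bil` -/
theorem Bil_bv (w α β : O → ℂ) {g : ℕ → ℂ} {G M x : ℝ} (hg : BV g G)
    (hM0 : 0 ≤ M) (hM : ∀ t, t ≤ x → ‖Bil w α β t‖ ≤ M) :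
    ‖Bil (fun c => g (N c) * w c) α β x‖ ≤ G * M := by
  classical
  -- the pairs
  set s : Finset (O × O) := (PB x ×ˢ PB x).filter (fun p => ((N (p.1 * p.2) : ℕ) : ℝ) ≤ x) with hs
  set u : O × O → ℂ := fun p => α p.1 * β p.2 * w (p.1 * p.2) with hu
  have h1 : Bil (fun c => g (N c) * w c) α β x = ∑ p ∈ s, g (N (p.1 * p.2)) * u p := by
    rw [Bil_eq_sum2 _ _ _ le_rfl, hs, sum_filter, sum_product]
    refine sum_congr rfl fun a _ => sum_congr rfl fun b _ => ?_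
    simp only [hu]
    split_ifs
    · ring
    · rfl
  rw [h1]
  refine abel_bound s (fun p => N (p.1 * p.2)) u hg hM0 ?_
  intro k
  have h2 : ∑ p ∈ s with N (p.1 * p.2) ≤ k, u p = Bil w α β (min x k) := by
    rw [Bil_eq_sum2 w α β (min_le_left x (k : ℝ)), hs, filter_filter, sum_filter, sum_product]
    refine sum_congr rfl fun a _ => sum_congr rfl fun b _ => ?_
    simp only [hu, le_min_iff, Nat.cast_le]
  rw [h2]
  exact hM _ (min_le_left _ _)

/-- partial summation inside `Bil`, between `x₀` and `x` -/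
theorem Bil_bv_diff (w α β : O → ℂ) {g : ℕ → ℂ} {G M x₀ x : ℝ} (hg : BV g G)
    (hx0 : x₀ ≤ x) (hM0 : 0 ≤ M) (hM : ∀ t, x₀ ≤ t → t ≤ x → ‖Bil w α β t‖ ≤ M) :
    ‖Bil (fun c => g (N c) * w c) α β x - Bil (fun c => g (N c) * w c) α β x₀‖ ≤ G * (2 * M) := by
  classical
  -- the pairs
  set s : Finset (O × O) := (PB x ×ˢ PB x).filter
    (fun p => x₀ < ((N (p.1 * p.2) : ℕ) : ℝ) ∧ ((N (p.1 * p.2) : ℕ) : ℝ) ≤ x) with hs
  set u : O × O → ℂ := fun p => α p.1 * β p.2 * w (p.1 * p.2) with hu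
  have hdiff : ∀ (v : O → ℂ) (t : ℝ), t ≤ x → x₀ ≤ t → Bil v α β t - Bil v α β x₀ =
      ∑ p ∈ PB x ×ˢ PB x, if x₀ < ((N (p.1 * p.2) : ℕ) : ℝ) ∧ ((N (p.1 * p.2) : ℕ) : ℝ) ≤ t
        then α p.1 * β p.2 * v (p.1 * p.2) else 0 := by
    intro v t ht ht0
    rw [Bil_eq_sum2 v α β ht, Bil_eq_sum2 v α β hx0, sum_product, ← sum_sub_distrib]
    refine sum_congr rfl fun a _ => ?_
    rw [← sum_sub_distrib]
    refine sum_congr rfl fun b _ => ?_
    dsimp only
    generalize ((N (a * b) : ℕ) : ℝ) = y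
    by_cases h1 : y ≤ x₀
    · rw [if_pos (h1.trans ht0), if_pos h1, if_neg (fun h => absurd h1 (not_le.2 h.1)), sub_self]
    · by_cases h2 : y ≤ t
      · rw [if_pos h2, if_neg h1, if_pos ⟨not_le.1 h1, h2⟩, sub_zero]
      · rw [if_neg h2, if_neg h1, if_neg (fun h => h2 h.2), sub_zero]
  have h1 : Bil (fun c => g (N c) * w c) α β x - Bil (fun c => g (N c) * w c) α β x₀ =
      ∑ p ∈ s, g (N (p.1 * p.2)) * u p := by
    rw [hdiff _ x le_rfl hx0, hs, sum_filter]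
    refine sum_congr rfl fun p _ => ?_
    simp only [hu]
    split_ifs
    · ring
    · rfl
  rw [h1]
  refine abel_bound s (fun p => N (p.1 * p.2)) u hg (by positivity) ?_
  intro k
  by_cases hk : x₀ ≤ k
  · have h2 : ∑ p ∈ s with N (p.1 * p.2) ≤ k, u p = Bil w α β (min x k) - Bil w α β x₀ := by
      rw [hdiff w (min x k) (min_le_left _ _) (le_min hx0 hk), hs, filter_filter, sum_filter]
      refine sum_congr rfl fun p _ => ?_
      simp only [hu, le_min_iff, Nat.cast_le, and_assoc]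
    rw [h2]
    calc _ ≤ _ := norm_sub_le _ _
      _ ≤ M + M := add_le_add (hM _ (le_min hx0 hk) (min_le_left _ _)) (hM _ le_rfl hx0)
      _ = 2 * M := by ring
  · rw [sum_eq_zero, norm_zero]
    · positivity
    · intro p hp
      exfalso
      rw [mem_filter, hs, mem_filter] at hp
      have h3 : ((N (p.1 * p.2) : ℕ) : ℝ) ≤ k := by exact_mod_cast hp.2
      linarith [hp.1.2.1, not_le.1 hk]

/-- weight `log N c` -/
theorem Bil_log_diff (w α β : O → ℂ) {M x₀ x : ℝ} (hx : 1 ≤ x) (hx0 : x₀ ≤ x)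
    (hM0 : 0 ≤ M) (hM : ∀ t, x₀ ≤ t → t ≤ x → ‖Bil w α β t‖ ≤ M) :
    ‖Bil (fun c => (Real.log (N c) : ℂ) * w c) α β x
      - Bil (fun c => (Real.log (N c) : ℂ) * w c) α β x₀‖ ≤ 2 * Real.log x * (2 * M) := by
  classical
  have hg : BV (fun n : ℕ => ((if (n : ℝ) ≤ x then Real.log n else 0 : ℝ) : ℂ))
      (2 * Real.log x) := by
    refine BV.of_mono (hi := x) ?_ ?_ ?_ ?_
    · intro n; split_ifs
      · exact Real.log_natCast_nonneg n
      · exact le_rfl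
    · intro n; split_ifs with h
      · exact log_nat_le hx h
      · exact Real.log_nonneg hx
    · intro n h
      have h2 : (n : ℝ) ≤ x := le_trans (by push_cast; linarith) h
      rw [if_pos h2, if_pos h]
      exact log_nat_le_succ n
    · intro n h
      rw [if_neg (not_le.2 h)]
  have h := Bil_bv_diff w α β hg hx0 hM0 hM
  refine le_trans (le_of_eq ?_) h
  congr 2
  · refine Bil_congr fun a b _ _ hab => ?_
    simp only [if_pos hab]
  · refine Bil_congr fun a b _ _ hab => ?_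
    simp only [if_pos (hab.trans hx0)]

/-! ### cuts -/

theorem cut_of {z y₁ y₂ : ℝ} {f : O → ℂ} {a : O} (h : Primary a ∧ Squarefree a ∧ Rough z a ∧
    y₁ < (N a : ℝ) ∧ (N a : ℝ) ≤ y₂) : cut z y₁ y₂ f a = f a := by
  classical
  unfold cut; rw [if_pos h]

theorem cut_not {z y₁ y₂ : ℝ} {f : O → ℂ} {a : O} (h : ¬ (Primary a ∧ Squarefree a ∧ Rough z a ∧
    y₁ < (N a : ℝ) ∧ (N a : ℝ) ≤ y₂)) : cut z y₁ y₂ f a = 0 := by
  classical
  unfold cut; rw [if_neg h]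

theorem cut_ne {z y₁ y₂ : ℝ} {f : O → ℂ} {a : O} (h : cut z y₁ y₂ f a ≠ 0) :
    Primary a ∧ Squarefree a ∧ Rough z a ∧ y₁ < (N a : ℝ) ∧ (N a : ℝ) ≤ y₂ := by
  by_contra h1
  exact h (cut_not h1)

theorem norm_cut_le {z y₁ y₂ X F : ℝ} {f : O → ℂ} (hF : 0 ≤ F) (hy : y₂ ≤ X)
    (hf : ∀ a, Primary a → Squarefree a → Rough z a → (N a : ℝ) ≤ X → ‖f a‖ ≤ F) (a : O) :
    ‖cut z y₁ y₂ f a‖ ≤ F := by
  by_cases h : Primary a ∧ Squarefree a ∧ Rough z a ∧ y₁ < (N a : ℝ) ∧ (N a : ℝ) ≤ y₂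
  · rw [cut_of h]; exact hf a h.1 h.2.1 h.2.2.1 (h.2.2.2.2.trans hy)
  · rw [cut_not h]; simpa using hF

theorem cut_split {z y₁ y₂ y₃ : ℝ} (h1 : y₁ ≤ y₂) (h2 : y₂ ≤ y₃) (f : O → ℂ) (a : O) :
    cut z y₁ y₃ f a = cut z y₁ y₂ f a + cut z y₂ y₃ f a := by
  classical
  unfold cut
  by_cases h : Primary a ∧ Squarefree a ∧ Rough z a
  · by_cases h3 : (N a : ℝ) ≤ y₂
    · have h4 : ¬ y₂ < (N a : ℝ) := not_lt.2 h3
      have h5 : (N a : ℝ) ≤ y₃ := h3.trans h2
      simp [h.1, h.2.1, h.2.2, h3, h4, h5]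
    · have h4 : y₂ < (N a : ℝ) := not_le.1 h3
      have h5 : y₁ < (N a : ℝ) := h1.trans_lt h4
      simp [h.1, h.2.1, h.2.2, h3, h4, h5]
  · rw [if_neg (fun h' => h ⟨h'.1, h'.2.1, h'.2.2.1⟩), if_neg (fun h' => h ⟨h'.1, h'.2.1, h'.2.2.1⟩),
      if_neg (fun h' => h ⟨h'.1, h'.2.1, h'.2.2.1⟩), add_zero]

theorem Bil_split {z y₁ y₂ y₃ : ℝ} (h1 : y₁ ≤ y₂) (h2 : y₂ ≤ y₃) (w f β : O → ℂ) (x : ℝ) :
    Bil w (cut z y₁ y₃ f) β x = Bil w (cut z y₁ y₂ f) β x + Bil w (cut z y₂ y₃ f) β x := by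
  rw [← Bil_add_left]
  congr 1
  funext a
  exact cut_split h1 h2 f a

/-- rough weight: insert cuts -/
theorem Bil_insert {w : O → ℂ} (hw : SqSupp w) {z x X : ℝ} (hx : x ≤ X) (α β : O → ℂ) :
    Bil (cut z 0 X w) α β x = Bil w (cut z 0 X α) (cut z 0 X β) x := by
  classical
  refine Bil_congr fun a b ha hb hab => ?_
  by_cases hwab : w (a * b) = 0
  · have : cut z 0 X w (a * b) = 0 := by unfold cut; split_ifs <;> simp [hwab]
    rw [this, hwab]; simp
  obtain ⟨h1, h2⟩ := hw _ hwab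
  have hsa : Squarefree a := h2.squarefree_of_dvd (dvd_mul_right _ _)
  have hsb : Squarefree b := h2.squarefree_of_dvd (dvd_mul_left _ _)
  have hNa : (N a : ℝ) ≤ X := ((N_le_N_mul_left hb).trans hab).trans hx
  have hNb : (N b : ℝ) ≤ X := ((N_le_N_mul_right ha).trans hab).trans hx
  have hpa : (0 : ℝ) < N a := by exact_mod_cast N_pos ha.ne_zero
  have hpb : (0 : ℝ) < N b := by exact_mod_cast N_pos hb.ne_zero
  have hpab : (0 : ℝ) < (N (a * b) : ℕ) := by exact_mod_cast N_pos (ha.mul hb).ne_zero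
  by_cases hr : Rough z (a * b)
  · rw [cut_of ⟨h1, h2, hr, hpab, hab.trans hx⟩, cut_of ⟨ha, hsa, hr.of_dvd (dvd_mul_right _ _), hpa, hNa⟩,
      cut_of ⟨hb, hsb, hr.of_dvd (dvd_mul_left _ _), hpb, hNb⟩]
  · rw [cut_not (fun h => hr h.2.2.1)]
    by_cases hra : Rough z a
    · have hrb : ¬ Rough z b := fun h => hr (hra.mul h)
      rw [cut_not (f := β) (fun h => hrb h.2.2.1)]; simp
    · rw [cut_not (f := α) (fun h => hra h.2.2.1)]; simp

/-- restrict the second variable by the size of the first -/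
theorem Bil_restrict {w f g : O → ℂ} {z y₁ y₂ y' x X Y : ℝ} (hx : x ≤ X) (hy : 0 < y₁)
    (hY : X / y₁ ≤ Y) (hYX : Y ≤ X) :
    Bil w (cut z y₁ y₂ f) (cut z y' X g) x = Bil w (cut z y₁ y₂ f) (cut z y' Y g) x := by
  classical
  refine Bil_congr fun a b ha hb hab => ?_
  by_cases h : cut z y₁ y₂ f a = 0
  · rw [h]; simp
  have h1 := (cut_ne h).2.2.2.1
  have h2 : (N b : ℝ) ≤ Y := by
    refine le_trans ?_ hY
    rw [le_div_iff₀ hy]
    rw [N_mul] at hab; push_cast at hab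
    have h3 : (0 : ℝ) ≤ N b := by positivity
    nlinarith
  have h3 : (N b : ℝ) ≤ X := h2.trans hYX
  congr 2
  unfold cut
  simp only [h2, h3]

end Vale.Agent.P006.VR
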