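import Vale.Agent.P006.H103.Bil

/-!
P006, block 20a (helper103): the edge ranges, summed over dyadic blocks.
-/

namespace Vale.Agent.P006.VR

open Vale.Agent.P006 Finset

/-- boundedness on the squarefree primary `z`-rough elements of norm `≤ X` -/
def Bd (z X : ℝ) (f : O → ℂ) (F : ℝ) : Prop :=
  ∀ a, Primary a → Squarefree a → Rough z a → (N a : ℝ) ≤ X → ‖f a‖ ≤ F

open Classical in
theorem sum_cut_sq_le {z y₁ y₂ X F Y : ℝ} {f : O → ℂ} (hF : 0 ≤ F) (hy : y₂ ≤ X)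
    (hf : Bd z X f F) :
    ∑ a ∈ SPB Y, ‖cut z y₁ y₂ f a‖ ^ 2 ≤ F ^ 2 * ((SPB Y).filter (Rough z)).card := by
  have h1 : ∑ a ∈ SPB Y, ‖cut z y₁ y₂ f a‖ ^ 2 =
      ∑ a ∈ (SPB Y).filter (Rough z), ‖cut z y₁ y₂ f a‖ ^ 2 := by
    rw [sum_filter]
    refine sum_congr rfl fun a _ => ?_
    split_ifs with h
    · rfl
    · rw [cut_not (fun h' => h h'.2.2.1)]; simp
  rw [h1]
  calc ∑ a ∈ (SPB Y).filter (Rough z), ‖cut z y₁ y₂ f a‖ ^ 2
      ≤ ∑ a ∈ (SPB Y).filter (Rough z), F ^ 2 := by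
        refine sum_le_sum fun a _ => ?_
        have := norm_cut_le (y₁ := y₁) hF hy hf a
        exact pow_le_pow_left₀ (norm_nonneg _) this 2
    _ = _ := by rw [sum_const, nsmul_eq_mul]; ring

/-- a family of facts about a large `X` -/
theorem large_facts {X : ℝ} (hX : 32 ≤ Real.log X) (hX0 : 0 < X) :
    1 < X ∧ X ^ (1 / 4 : ℝ) ≤ X ^ (1 / 3 : ℝ) / 4 ∧ 4 ≤ X ^ (1 / 12 : ℝ) := by
  have h1 : 1 < X := by
    by_contra h
    have := Real.log_nonpos hX0.le (not_lt.1 h)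
    linarith
  have h2 : (4 : ℝ) ≤ X ^ (1 / 12 : ℝ) := by
    rw [← Real.log_le_log_iff (by norm_num) (by positivity), Real.log_rpow hX0]
    have h3 : Real.log 4 = 2 * Real.log 2 := by
      rw [show (4 : ℝ) = 2 ^ 2 by norm_num, Real.log_pow]; push_cast; ring
    rw [h3]
    have := Real.log_two_lt_d9
    linarith
  refine ⟨h1, ?_, h2⟩
  have h3 : X ^ (1 / 3 : ℝ) = X ^ (1 / 4 : ℝ) * X ^ (1 / 12 : ℝ) := by
    rw [← Real.rpow_add hX0]; norm_num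
  rw [h3, le_div_iff₀ (by norm_num)]
  exact mul_le_mul_of_nonneg_left h2 (by positivity)

/-- one dyadic block -/
theorem edge_block {w : O → ℂ} {d η : ℝ} (hd1 : 1 / 3 + d < 1 / 2) {CR : ℝ} (hCR : 0 ≤ CR)
    (hR : ∀ X y : ℝ, 3 ≤ X → X ^ (1 / 4 : ℝ) ≤ y → y ≤ X →
      ((@filter O (Rough (X ^ η)) (Classical.decPred _) (SPB y)).card : ℝ) ≤
        CR * y / Real.log X)
    {C₀ : ℝ} (hC₀ : 0 ≤ C₀) {W : O} {A : ℕ} {C : ℝ}
    (hE : ∀ X : ℝ, 3 ≤ X → ∀ A₀ : ℝ, X ^ (1 / 3 : ℝ) / 4 ≤ A₀ → A₀ ≤ X ^ (1 / 3 + d) →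
      ∀ α β : O → ℂ, ClassG α X (Real.log X ^ 2) →
      (∀ a, α a ≠ 0 → Rough (X ^ η) a ∧ A₀ < (N a : ℝ) ∧ (N a : ℝ) ≤ 2 * A₀) →
      (∀ b, ‖β b‖ ≤ Real.log X ^ 2) →
      (∀ b, β b ≠ 0 → Primary b ∧ Squarefree b ∧ Rough (X ^ η) b ∧ (N b : ℝ) ≤ X / A₀) →
      ∀ x : ℝ, X / 2 ≤ x → x ≤ X → ‖Bil w α β x‖ ≤
        C₀ * Real.sqrt (dens W) * Real.sqrt ((X / A₀) * (∑ a ∈ SPB (2 * A₀), ‖α a‖ ^ 2) *
          (∑ b ∈ SPB (X / A₀), ‖β b‖ ^ 2))
        + C * X ^ (5 / 6 : ℝ) / Real.log X ^ A)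
    {X : ℝ} (hX : 3 ≤ X) (hL : 32 ≤ Real.log X) {y y₂ : ℝ} (hy : X ^ (1 / 3 : ℝ) / 4 ≤ y)
    (hyd : y ≤ X ^ (1 / 3 + d)) (hy2 : y₂ ≤ 2 * y) (hy2X : y₂ ≤ X)
    {f g : O → ℂ} (hf : ClassG (cut (X ^ η) y y₂ f) X (Real.log X ^ 2))
    {F G M y' : ℝ} (hF0 : 0 ≤ F) (hG0 : 0 ≤ G) (hG : G ≤ Real.log X ^ 2)
    (hfF : Bd (X ^ η) X f F) (hgG : Bd (X ^ η) X g G) (hM : F * G ≤ M * Real.log X)
    {x : ℝ} (hx2 : X / 2 ≤ x) (hx : x ≤ X) :
    ‖Bil w (cut (X ^ η) y y₂ f) (cut (X ^ η) y' X g) x‖ ≤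
      (C₀ * Real.sqrt (dens W) * (2 * CR * M)) * X / Real.sqrt y
        + C * X ^ (5 / 6 : ℝ) / Real.log X ^ A := by
  have hX0 : (0 : ℝ) < X := by linarith
  obtain ⟨hX1, h14, -⟩ := large_facts hL hX0
  have hL0 : 0 < Real.log X := by linarith
  have hX14 : (0 : ℝ) < X ^ (1 / 4 : ℝ) := by positivity
  have hy1 : 1 ≤ y := by
    have : (1 : ℝ) ≤ X ^ (1 / 4 : ℝ) := Real.one_le_rpow hX1.le (by norm_num)
    linarith
  have hy0 : 0 < y := by linarith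
  have hXy : X / y ≤ X := div_le_self hX0.le hy1
  -- y ≤ √X
  have hysq : y ≤ X ^ (1 / 2 : ℝ) :=
    hyd.trans (Real.rpow_le_rpow_of_exponent_le hX1.le hd1.le)
  have hXX : X ^ (1 / 2 : ℝ) * X ^ (1 / 2 : ℝ) = X := by
    rw [← Real.rpow_add hX0]; norm_num
  have hsq4 : (4 : ℝ) ≤ X ^ (1 / 2 : ℝ) := by
    have h2 := (large_facts hL hX0).2.2
    exact h2.trans (Real.rpow_le_rpow_of_exponent_le hX1.le (by norm_num))
  have h2yX : 2 * y ≤ X := by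
    calc 2 * y ≤ X ^ (1 / 2 : ℝ) * X ^ (1 / 2 : ℝ) :=
          mul_le_mul (by linarith) hysq hy0.le (by positivity)
      _ = X := hXX
  have h14b : X ^ (1 / 4 : ℝ) ≤ X / y := by
    rw [le_div_iff₀ hy0]
    calc X ^ (1 / 4 : ℝ) * y ≤ X ^ (1 / 2 : ℝ) * X ^ (1 / 2 : ℝ) :=
          mul_le_mul (Real.rpow_le_rpow_of_exponent_le hX1.le (by norm_num)) hysq hy0.le
            (by positivity)
      _ = X := hXX
  -- restrict β
  rw [Bil_restrict (Y := X / y) hx hy0 le_rfl hXy]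
  have h := hE X hX y hy hyd (cut (X ^ η) y y₂ f) (cut (X ^ η) y' (X / y) g) hf
    (fun a ha => ⟨(cut_ne ha).2.2.1, (cut_ne ha).2.2.2.1, (cut_ne ha).2.2.2.2.trans hy2⟩)
    (fun b => (norm_cut_le hG0 hXy hgG b).trans hG)
    (fun b hb => ⟨(cut_ne hb).1, (cut_ne hb).2.1, (cut_ne hb).2.2.1, (cut_ne hb).2.2.2.2⟩) x hx2 hx
  refine h.trans (add_le_add_left ?_ _)
  have h1 : ∑ a ∈ SPB (2 * y), ‖cut (X ^ η) y y₂ f a‖ ^ 2 ≤
      F ^ 2 * (CR * (2 * y) / Real.log X) :=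
    (sum_cut_sq_le hF0 hy2X hfF).trans
      (mul_le_mul_of_nonneg_left (hR X (2 * y) hX (by linarith) h2yX) (by positivity))
  have h2 : ∑ b ∈ SPB (X / y), ‖cut (X ^ η) y' (X / y) g b‖ ^ 2 ≤
      G ^ 2 * (CR * (X / y) / Real.log X) :=
    (sum_cut_sq_le hG0 hXy hgG).trans
      (mul_le_mul_of_nonneg_left (hR X (X / y) hX h14b hXy) (by positivity))
  have hXy0 : 0 < X / y := by positivity
  have h3 : (X / y) * (∑ a ∈ SPB (2 * y), ‖cut (X ^ η) y y₂ f a‖ ^ 2) *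
      (∑ b ∈ SPB (X / y), ‖cut (X ^ η) y' (X / y) g b‖ ^ 2) ≤
      ((2 * CR * M) * X / Real.sqrt y) ^ 2 := by
    calc (X / y) * (∑ a ∈ SPB (2 * y), ‖cut (X ^ η) y y₂ f a‖ ^ 2) *
          (∑ b ∈ SPB (X / y), ‖cut (X ^ η) y' (X / y) g b‖ ^ 2)
        ≤ (X / y) * (F ^ 2 * (CR * (2 * y) / Real.log X)) *
          (G ^ 2 * (CR * (X / y) / Real.log X)) := by
          refine mul_le_mul ?_ h2 (by positivity) (by positivity)
          exact mul_le_mul_of_nonneg_left h1 hXy0.le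
      _ = (F * G) ^ 2 / Real.log X ^ 2 * (2 * CR ^ 2 * X ^ 2 / y) := by
          field_simp
      _ ≤ M ^ 2 * (4 * CR ^ 2 * X ^ 2 / y) := by
          have h4 : (F * G) ^ 2 / Real.log X ^ 2 ≤ M ^ 2 := by
            rw [div_le_iff₀ (by positivity), ← mul_pow]
            exact pow_le_pow_left₀ (by positivity) hM 2
          have h5 : 2 * CR ^ 2 * X ^ 2 / y ≤ 4 * CR ^ 2 * X ^ 2 / y := by
            apply div_le_div_of_nonneg_right _ hy0.le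
            nlinarith [sq_nonneg (CR * X)]
          exact mul_le_mul h4 h5 (by positivity) (by positivity)
      _ = ((2 * CR * M) * X / Real.sqrt y) ^ 2 := by
          rw [div_pow, Real.sq_sqrt hy0.le]; ring
  have hM0 : 0 ≤ M := by
    have : 0 ≤ M * Real.log X := le_trans (by positivity) hM
    exact nonneg_of_mul_nonneg_left this hL0
  calc C₀ * Real.sqrt (dens W) * Real.sqrt _
      ≤ C₀ * Real.sqrt (dens W) * ((2 * CR * M) * X / Real.sqrt y) := by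
        refine mul_le_mul_of_nonneg_left ?_ (by positivity)
        exact Real.sqrt_le_iff.2 ⟨by positivity, h3⟩
    _ = _ := by ring

theorem exists_blocks {X : ℝ} (hL : 32 ≤ Real.log X) (hX0 : 0 < X) :
    ∃ j : ℕ, 4 * X ≤ 2 ^ j ∧ (j : ℝ) ≤ 5 * Real.log X := by
  have hl2 : 1 / 2 < Real.log 2 := by have := Real.log_two_gt_d9; linarith
  have hl2' : 0 < Real.log 2 := by linarith
  refine ⟨⌈Real.log X / Real.log 2⌉₊ + 2, ?_, ?_⟩
  · have h2 : Real.log X / Real.log 2 ≤ (⌈Real.log X / Real.log 2⌉₊ : ℝ) := Nat.le_ceil _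
    have h3 : X ≤ 2 ^ ⌈Real.log X / Real.log 2⌉₊ := by
      rw [← Real.log_le_log_iff hX0 (by positivity), Real.log_pow]
      rw [div_le_iff₀ hl2'] at h2
      exact h2
    rw [pow_add]
    linarith
  · have h2 : (⌈Real.log X / Real.log 2⌉₊ : ℝ) < Real.log X / Real.log 2 + 1 :=
      Nat.ceil_lt_add_one (by positivity)
    have h3 : Real.log X / Real.log 2 ≤ 2 * Real.log X := by
      rw [div_le_iff₀ hl2']
      have h4 : Real.log X * (1 / 2) ≤ Real.log X * Real.log 2 :=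
        mul_le_mul_of_nonneg_left hl2.le (by linarith)
      linarith
    push_cast
    linarith

theorem sqrt_step {K X y : ℝ} (hK : 0 ≤ K) (hX : 0 ≤ X) (hy : 0 < y) :
    4 * K * X / Real.sqrt (2 * y) ≤ 3 * K * X / Real.sqrt y := by
  rw [Real.sqrt_mul (by norm_num), div_le_div_iff₀ (by positivity) (by positivity)]
  have h4 : (4 : ℝ) ≤ 3 * Real.sqrt 2 := by
    have : (4 / 3 : ℝ) ≤ Real.sqrt 2 := Real.le_sqrt_of_sq_le (by norm_num)
    linarith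
  have h5 : 0 ≤ K * X * Real.sqrt y := by positivity
  calc 4 * K * X * Real.sqrt y = 4 * (K * X * Real.sqrt y) := by ring
    _ ≤ (3 * Real.sqrt 2) * (K * X * Real.sqrt y) := mul_le_mul_of_nonneg_right h4 h5
    _ = _ := by ring

theorem div_sqrt_le {X y : ℝ} (hX0 : 0 < X) (hy : X ^ (1 / 3 : ℝ) / 4 ≤ y) :
    X / Real.sqrt y ≤ 2 * X ^ (5 / 6 : ℝ) := by
  have h1 : X ^ (1 / 6 : ℝ) / 2 ≤ Real.sqrt y := by
    apply Real.le_sqrt_of_sq_le
    rw [div_pow, ← Real.rpow_natCast, ← Real.rpow_mul hX0.le]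
    refine le_trans (le_of_eq ?_) hy
    norm_num
  have h3 : X = X ^ (5 / 6 : ℝ) * X ^ (1 / 6 : ℝ) := by
    rw [← Real.rpow_add hX0]; norm_num
  have hy0 : 0 < y := lt_of_lt_of_le (by positivity) hy
  rw [div_le_iff₀ (Real.sqrt_pos.2 hy0)]
  have h4 : (0 : ℝ) < X ^ (5 / 6 : ℝ) := by positivity
  calc X = X ^ (5 / 6 : ℝ) * X ^ (1 / 6 : ℝ) := h3
    _ = 2 * X ^ (5 / 6 : ℝ) * (X ^ (1 / 6 : ℝ) / 2) := by ring
    _ ≤ _ := mul_le_mul_of_nonneg_left h1 (by positivity)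

theorem edge_key {w f γ : O → ℂ} {z x Y1 lo K E X : ℝ} (hlo : 0 < lo) (hX : 0 ≤ X)
    (hK0 : 0 ≤ K) (hE0 : 0 ≤ E)
    (hb : ∀ y, lo ≤ y → y ≤ Y1 → ‖Bil w (cut z y (min (2 * y) Y1) f) γ x‖ ≤
      K * X / Real.sqrt y + E) :
    ∀ j : ℕ, ∀ y : ℝ, lo ≤ y → Y1 ≤ y * 2 ^ j →
      ‖Bil w (cut z y Y1 f) γ x‖ ≤ 4 * K * X / Real.sqrt y + j * E := by
  intro j
  induction j with
  | zero =>
    intro y hy hyj
    have hy0 : 0 < y := lt_of_lt_of_le hlo hy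
    rw [Bil_eq_zero]
    · rw [norm_zero]; positivity
    · intro a b _ _ _
      rw [cut_not]
      · simp
      · rintro ⟨_, _, _, h4, h5⟩
        simp only [pow_zero, mul_one] at hyj
        linarith
  | succ j ih =>
    intro y hy hyj
    have hy0 : 0 < y := lt_of_lt_of_le hlo hy
    by_cases hyY : Y1 < y
    · rw [Bil_eq_zero]
      · rw [norm_zero]; positivity
      · intro a b _ _ _
        rw [cut_not]
        · simp
        · rintro ⟨_, _, _, h4, h5⟩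
          linarith
    have hyY' : y ≤ Y1 := not_lt.1 hyY
    -- the blocks
    have hmin1 : y ≤ min (2 * y) Y1 := le_min (by linarith) hyY'
    rw [Bil_split hmin1 (min_le_right _ _)]
    have hb2 : ‖Bil w (cut z (min (2 * y) Y1) Y1 f) γ x‖ ≤
        4 * K * X / Real.sqrt (2 * y) + j * E := by
      by_cases h : 2 * y ≤ Y1
      · rw [min_eq_left h]
        apply ih (2 * y) (by linarith)
        rw [pow_succ] at hyj
        linarith
      · rw [min_eq_right (not_le.1 h).le, Bil_eq_zero]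
        · rw [norm_zero]; positivity
        · intro a b _ _ _
          rw [cut_not]
          · simp
          · rintro ⟨_, _, _, h4, h5⟩
            linarith
    have h3 : 4 * K * X / Real.sqrt (2 * y) ≤ 3 * K * X / Real.sqrt y :=
      sqrt_step hK0 hX hy0
    calc _ ≤ _ := norm_add_le _ _
      _ ≤ (K * X / Real.sqrt y + E) + (3 * K * X / Real.sqrt y + j * E) :=
        add_le_add (hb y hy hyY') (hb2.trans (add_le_add h3 le_rfl))
      _ = 4 * K * X / Real.sqrt y + ((j + 1 : ℕ) : ℝ) * E := by push_cast; ring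

/-- **edge sum** -/
theorem edge_sum {w : O → ℂ} {d η : ℝ} (hd0 : 0 < d) (hd1 : 1 / 3 + d < 1 / 2)
    (hE : EdgeH w d η) (hR : RoughCount η) :
    ∃ C₁ : ℝ, 0 ≤ C₁ ∧ ∀ W : O, Primary W → Squarefree W → ∀ A : ℕ, ∃ C : ℝ, 0 ≤ C ∧
      ∀ X : ℝ, 3 ≤ X → 32 ≤ Real.log X → ∀ y : ℝ, X ^ (1 / 3 : ℝ) / 4 ≤ y →
      ∀ f g : O → ℂ, (∀ y y₂, y₂ ≤ X → ClassG (cut (X ^ η) y y₂ f) X (Real.log X ^ 2)) →
      ∀ F G M y' : ℝ, 0 ≤ F → 0 ≤ G → G ≤ Real.log X ^ 2 →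
      Bd (X ^ η) X f F → Bd (X ^ η) X g G → F * G ≤ M * Real.log X →
      ∀ x : ℝ, X / 2 ≤ x → x ≤ X →
      ‖Bil w (cut (X ^ η) y (X ^ (1 / 3 + d)) f) (cut (X ^ η) y' X g) x‖ ≤
        C₁ * Real.sqrt (dens W) * M * X ^ (5 / 6 : ℝ)
          + C * X ^ (5 / 6 : ℝ) / Real.log X ^ A := by
  obtain ⟨C₀, hC₀, hE⟩ := hE
  obtain ⟨CR, hCR, hR⟩ := hR
  refine ⟨16 * C₀ * CR, by positivity, ?_⟩
  intro W hW1 hW2 A
  obtain ⟨C, hC, hE⟩ := hE W hW1 hW2 (A + 1)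
  refine ⟨5 * C, by positivity, ?_⟩
  intro X hX hL y hy f g hf F G M y' hF0 hG0 hG hfF hgG hM x hx2 hx
  have hX0 : (0 : ℝ) < X := by linarith
  obtain ⟨hX1, h14, -⟩ := large_facts hL hX0
  have hL0 : 0 < Real.log X := by linarith
  have hM0 : 0 ≤ M := by
    have : 0 ≤ M * Real.log X := le_trans (by positivity) hM
    exact nonneg_of_mul_nonneg_left this hL0
  have hX13 : (0 : ℝ) < X ^ (1 / 3 : ℝ) := by positivity
  set Y1 := X ^ (1 / 3 + d) with hY1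
  have hY1X : Y1 ≤ X := by
    calc Y1 ≤ X ^ (1 : ℝ) := Real.rpow_le_rpow_of_exponent_le hX1.le (by linarith)
      _ = X := Real.rpow_one X
  set K := C₀ * Real.sqrt (dens W) * (2 * CR * M) with hK
  have hK0 : 0 ≤ K := by positivity
  set E := C * X ^ (5 / 6 : ℝ) / Real.log X ^ (A + 1) with hEdef
  have hE0 : 0 ≤ E := by positivity
  have key := edge_key (w := w) (f := f) (γ := cut (X ^ η) y' X g) (z := X ^ η) (x := x)
    (Y1 := Y1) (lo := X ^ (1 / 3 : ℝ) / 4) (by positivity) hX0.le hK0 hE0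
    (fun y hy hyY => edge_block hd1 hCR hR hC₀ hE hX hL hy hyY (min_le_left _ _)
      ((min_le_right _ _).trans hY1X) (hf _ _ ((min_le_right _ _).trans hY1X)) hF0 hG0 hG
      hfF hgG hM hx2 hx)
  -- choose j
  obtain ⟨j, hj1, hj2⟩ := exists_blocks hL hX0
  have hYj : Y1 ≤ y * 2 ^ j := by
    have h1 : X ^ (1 / 3 : ℝ) * X ^ d = Y1 := by rw [hY1, ← Real.rpow_add hX0]
    have h2 : X ^ d ≤ X := by
      calc X ^ d ≤ X ^ (1 : ℝ) := Real.rpow_le_rpow_of_exponent_le hX1.le (by linarith)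
        _ = X := Real.rpow_one X
    calc Y1 = X ^ (1 / 3 : ℝ) / 4 * (4 * X ^ d) := by rw [← h1]; ring
      _ ≤ y * 2 ^ j := mul_le_mul hy (by linarith) (by positivity)
          (le_trans (by positivity) hy)
  have hfin := key j y hy hYj
  refine hfin.trans (add_le_add ?_ ?_)
  · calc 4 * K * X / Real.sqrt y = 4 * K * (X / Real.sqrt y) := by ring
      _ ≤ 4 * K * (2 * X ^ (5 / 6 : ℝ)) :=
        mul_le_mul_of_nonneg_left (div_sqrt_le hX0 hy) (by positivity)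
      _ = _ := by rw [hK]; ring
  · calc (j : ℝ) * E ≤ 5 * Real.log X * E := mul_le_mul_of_nonneg_right hj2 hE0
      _ = 5 * C * X ^ (5 / 6 : ℝ) / Real.log X ^ A := by
        rw [hEdef, pow_succ]; field_simp

end Vale.Agent.P006.VR
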