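import Vale.Agent.P006.H103.Asm
import Mathlib.Analysis.SpecialFunctions.Pow.Asymptotics

/-!
P006, block 20a (helper103): the final sieve step. From rough Type I, interior Type II, the
central Type II estimates, the edge estimate, the rough count and Mertens, the sum of `w` over
primary primes of norm `≤ X` is `o(X^{5/6}/log X)`.
-/

namespace Vale.Agent.P006.VR

open Vale.Agent.P006 Finset Filter Topology

/-- `∑_{N p ≤ x} log N p · w p` over primary primes -/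
noncomputable def theta (w : O → ℂ) (x : ℝ) : ℂ := ∑ c ∈ PB x, (lamb c : ℂ) * w c

theorem theta_eq_PP (w : O → ℂ) (x : ℝ) :
    theta w x = ∑ p ∈ PP x, (Real.log (N p) : ℂ) * w p := by
  classical
  rw [theta, PP, sum_filter]
  refine sum_congr rfl fun c _ => ?_
  by_cases h : Prime c
  · rw [if_pos h, lamb_prime h]
  · rw [if_neg h, lamb_of_not_prime h]; simp

theorem theta_sub {w : O → ℂ} {X V : ℝ} (hV : V ≤ X / 2) (hX : 0 ≤ X) :
    theta w X - theta w (X / 2) =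
      ∑ c ∈ (PB X).filter (fun c => V < (N c : ℝ)), (lamb c : ℂ) * w c
      - ∑ c ∈ (PB (X / 2)).filter (fun c => V < (N c : ℝ)), (lamb c : ℂ) * w c := by
  classical
  have h1 : ∀ x, theta w x = ∑ c ∈ (PB x).filter (fun c => V < (N c : ℝ)), (lamb c : ℂ) * w c
      + ∑ c ∈ (PB x).filter (fun c => ¬ V < (N c : ℝ)), (lamb c : ℂ) * w c := by
    intro x
    rw [theta, sum_filter_add_sum_filter_not]
  have h2 : (PB X).filter (fun c => ¬ V < (N c : ℝ)) =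
      (PB (X / 2)).filter (fun c => ¬ V < (N c : ℝ)) := by
    ext c
    rw [mem_filter, mem_filter, mem_PB, mem_PB]
    constructor
    · rintro ⟨⟨a, _⟩, b⟩
      exact ⟨⟨a, (not_lt.1 b).trans hV⟩, b⟩
    · rintro ⟨⟨a, c⟩, b⟩
      exact ⟨⟨a, by linarith⟩, b⟩
  rw [h1 X, h1 (X / 2), h2]
  ring

/-- difference bound -/
theorem theta_diff {w : O → ℂ} (hw : SqSupp w) {d κ η : ℝ} (hd : 0 < d) (hκ : 0 < κ)
    (hη : 0 < η) (hη3 : η ≤ 1 / 3) (h1 : 1 / 3 + d < 1 / 2 - κ)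
    (TR : TRH w d η) (T2 : TIIH w d κ η) (TP : TIIPH w κ η) (TB : TIIBH w κ η)
    (hE : EdgeH w d η) (hR : RoughCount η) :
    ∃ C₁ : ℝ, 0 ≤ C₁ ∧ ∀ W : O, Primary W → Squarefree W → ∃ C : ℝ, 0 ≤ C ∧
      ∀ X : ℝ, 3 ≤ X → 32 ≤ Real.log X → 4 * 2 ^ (1 / η) ≤ Real.log X →
      ‖theta w X - theta w (X / 2)‖ ≤
        C₁ * Real.sqrt (dens W) * X ^ (5 / 6 : ℝ) + C * X ^ (5 / 6 : ℝ) / Real.log X := by
  classical
  obtain ⟨K1, hK1, B1⟩ := s1_bound hw hd (by linarith) TR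
  obtain ⟨C2, hC2, B2⟩ := s2_bound hd hκ h1 TR T2 TB hE hR
  obtain ⟨C3, hC3, B3⟩ := s3_bound hd hκ hη h1 T2 TP hE hR
  refine ⟨2 * C2 + 2 * C3, by positivity, ?_⟩
  intro W hW1 hW2
  obtain ⟨K2, hK2, B2⟩ := B2 W hW1 hW2
  obtain ⟨K3, hK3, B3⟩ := B3 W hW1 hW2
  refine ⟨K1 + 2 * K2 + 2 * K3, by positivity, ?_⟩
  intro X hX hL hT
  have hX1 : 1 < X := by linarith
  have hX0 : 0 < X := by linarith
  have hL0 : 0 < Real.log X := by linarith
  obtain ⟨E, hEE⟩ := B2 X hX hL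
  set U := X ^ (1 / 3 : ℝ) with hU
  have hzU : X ^ η ≤ U := Real.rpow_le_rpow_of_exponent_le hX1.le hη3
  have hUX : U ≤ X / 2 := by
    obtain ⟨-, -, h3⟩ := large_facts hL hX0
    have h4 : U * X ^ (1 / 12 : ℝ) ≤ X := by
      rw [hU, ← Real.rpow_add hX0]
      conv_rhs => rw [← Real.rpow_one X]
      exact Real.rpow_le_rpow_of_exponent_le hX1.le (by norm_num)
    have h5 : 0 < U := by positivity
    nlinarith
  have hU0 : 0 ≤ U := by positivity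
  have hW0 : ∀ c, ¬ Squarefree c → cut (X ^ η) 0 X w c = 0 := fun c hc =>
    cut_not (fun h => hc h.2.1)
  have b1 := B1 X hX hL
  have hXX : X / 2 ≤ X := by linarith
  rw [theta_sub hUX hX0.le, ← theta_eq hzU le_rfl, ← theta_eq hzU hXX,
    vaughan_sum _ hW0 X U U, vaughan_sum _ hW0 (X / 2) U U, s2_eq hw le_rfl, s2_eq hw hXX,
    s3_eq hw hU0 le_rfl, s3_eq hw hU0 hXX]
  have b2 := hEE X hXX le_rfl
  have b2' := hEE (X / 2) le_rfl hXX
  have b3 := B3 X hX hL hT X hXX le_rfl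
  have b3' := B3 X hX hL hT (X / 2) le_rfl hXX
  set S1 := ∑ m ∈ (PB X).filter (fun m => (N m : ℝ) ≤ U), (mu m : ℂ) *
      ∑ n ∈ PB (X / N m), (Real.log (N n) : ℂ) * cut (X ^ η) 0 X w (m * n) with hS1
  set S1' := ∑ m ∈ (PB (X / 2)).filter (fun m => (N m : ℝ) ≤ U), (mu m : ℂ) *
      ∑ n ∈ PB ((X / 2) / N m), (Real.log (N n) : ℂ) * cut (X ^ η) 0 X w (m * n) with hS1'
  set S2 := Bil w (cut (X ^ η) 0 X (fun a => (cq U U a : ℂ))) (cut (X ^ η) 0 X 1) X with hS2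
  set S2' := Bil w (cut (X ^ η) 0 X (fun a => (cq U U a : ℂ))) (cut (X ^ η) 0 X 1) (X / 2)
    with hS2'
  set S3 := Bil w (cut (X ^ η) U X (fun a => (lamb a : ℂ)))
    (cut (X ^ η) 0 X (fun b => (bet U b : ℂ))) X with hS3
  set S3' := Bil w (cut (X ^ η) U X (fun a => (lamb a : ℂ)))
    (cut (X ^ η) 0 X (fun b => (bet U b : ℂ))) (X / 2) with hS3'
  have e : S1 - S2 + S3 - (S1' - S2' + S3') =
      (S1 - S1') - (S2 - E) + (S2' - E) + (S3 - S3') := by ring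
  rw [e]
  calc _ ≤ ‖(S1 - S1') - (S2 - E) + (S2' - E)‖ + ‖S3 - S3'‖ := norm_add_le _ _
    _ ≤ ((‖S1 - S1'‖ + ‖S2 - E‖) + ‖S2' - E‖) + (‖S3‖ + ‖S3'‖) :=
      add_le_add ((norm_add_le _ _).trans (add_le_add (norm_sub_le _ _) le_rfl))
        (norm_sub_le _ _)
    _ ≤ ((K1 * X ^ (5 / 6 : ℝ) / Real.log X + (C2 * Real.sqrt (dens W) * X ^ (5 / 6 : ℝ)
          + K2 * X ^ (5 / 6 : ℝ) / Real.log X)) + (C2 * Real.sqrt (dens W) * X ^ (5 / 6 : ℝ)
          + K2 * X ^ (5 / 6 : ℝ) / Real.log X)) + ((C3 * Real.sqrt (dens W) * X ^ (5 / 6 : ℝ)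
          + K3 * X ^ (5 / 6 : ℝ) / Real.log X) + (C3 * Real.sqrt (dens W) * X ^ (5 / 6 : ℝ)
          + K3 * X ^ (5 / 6 : ℝ) / Real.log X)) :=
      add_le_add (add_le_add (add_le_add b1 b2) b2') (add_le_add b3 b3')
    _ = _ := by ring

/-- `θ(x) ≤ 3 ε x^{5/6} + K` -/
theorem theta_small {w : O → ℂ} (hw : SqSupp w) {d κ η : ℝ} (hd : 0 < d) (hκ : 0 < κ)
    (hη : 0 < η) (hη3 : η ≤ 1 / 3) (h1 : 1 / 3 + d < 1 / 2 - κ)
    (TR : TRH w d η) (T2 : TIIH w d κ η) (TP : TIIPH w κ η) (TB : TIIBH w κ η)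
    (hE : EdgeH w d η) (hR : RoughCount η) (hD : DensZero) {ε : ℝ} (hε : 0 < ε) :
    ∃ K : ℝ, 0 ≤ K ∧ ∀ x : ℝ, 0 ≤ x → ‖theta w x‖ ≤ ε * x ^ (5 / 6 : ℝ) + K := by
  obtain ⟨C₁, hC₁, H⟩ := theta_diff hw hd hκ hη hη3 h1 TR T2 TP TB hE hR
  -- choose W
  obtain ⟨W, hW1, hW2, hW3⟩ := hD ((ε / (8 * (C₁ + 1))) ^ 2) (by positivity)
  obtain ⟨C, hC, H⟩ := H W hW1 hW2
  have hsq : C₁ * Real.sqrt (dens W) ≤ ε / 8 := by
    have h2 : Real.sqrt (dens W) ≤ ε / (8 * (C₁ + 1)) :=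
      Real.sqrt_le_iff.2 ⟨by positivity, hW3.le⟩
    calc C₁ * Real.sqrt (dens W) ≤ (C₁ + 1) * (ε / (8 * (C₁ + 1))) :=
          mul_le_mul (by linarith) h2 (Real.sqrt_nonneg _) (by positivity)
      _ = ε / 8 := by field_simp
  -- a threshold
  obtain ⟨X₀, hX₀3, hX₀⟩ : ∃ X₀ : ℝ, 3 ≤ X₀ ∧ ∀ X, X₀ ≤ X →
      32 ≤ Real.log X ∧ 4 * 2 ^ (1 / η) ≤ Real.log X ∧ 8 * C / ε ≤ Real.log X := by
    set T := max 32 (max (4 * 2 ^ (1 / η)) (8 * C / ε)) with hT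
    have hev : ∀ᶠ X in atTop, T ≤ Real.log X := Real.tendsto_log_atTop.eventually_ge_atTop T
    obtain ⟨X₁, hX₁⟩ := eventually_atTop.1 hev
    refine ⟨max 3 X₁, le_max_left _ _, ?_⟩
    intro X hX
    have h2 := hX₁ X ((le_max_right _ _).trans hX)
    exact ⟨(le_max_left _ _).trans h2, ((le_max_left _ _).trans (le_max_right _ _)).trans h2,
      ((le_max_right _ _).trans (le_max_right _ _)).trans h2⟩
  have hstep : ∀ X, X₀ ≤ X → ‖theta w X - theta w (X / 2)‖ ≤ ε / 4 * X ^ (5 / 6 : ℝ) := by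
    intro X hX
    obtain ⟨h2, h3, h4⟩ := hX₀ X hX
    have hX0 : 0 < X := by linarith
    have hL0 : 0 < Real.log X := by linarith
    have h5 := H X (by linarith) h2 h3
    have h6 : C * X ^ (5 / 6 : ℝ) / Real.log X ≤ ε / 8 * X ^ (5 / 6 : ℝ) := by
      rw [div_le_iff₀ hL0]
      have h7 : C ≤ ε / 8 * Real.log X := by
        rw [div_le_iff₀ hε] at h4
        linarith
      have h8 : 0 ≤ X ^ (5 / 6 : ℝ) := by positivity
      calc C * X ^ (5 / 6 : ℝ) ≤ (ε / 8 * Real.log X) * X ^ (5 / 6 : ℝ) :=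
            mul_le_mul_of_nonneg_right h7 h8
        _ = _ := by ring
    have h9 : C₁ * Real.sqrt (dens W) * X ^ (5 / 6 : ℝ) ≤ ε / 8 * X ^ (5 / 6 : ℝ) :=
      mul_le_mul_of_nonneg_right hsq (by positivity)
    linarith
  -- bound below the threshold
  set K : ℝ := ∑ c ∈ PB X₀, ‖(lamb c : ℂ) * w c‖ with hK
  have hK0 : 0 ≤ K := sum_nonneg fun _ _ => norm_nonneg _
  refine ⟨K, hK0, ?_⟩
  have key : ∀ n : ℕ, ∀ x : ℝ, 0 ≤ x → x ≤ X₀ * 2 ^ n → ‖theta w x‖ ≤ ε * x ^ (5 / 6 : ℝ) + K := by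
    intro n
    induction n with
    | zero =>
      intro x hx0 hx
      rw [pow_zero, mul_one] at hx
      have h2 : ‖theta w x‖ ≤ K := by
        rw [theta]
        refine (norm_sum_le _ _).trans ?_
        exact sum_le_sum_of_subset_of_nonneg (PB_mono hx) fun _ _ _ => norm_nonneg _
      have h3 : 0 ≤ ε * x ^ (5 / 6 : ℝ) := by positivity
      linarith
    | succ n ih =>
      intro x hx0 hx
      by_cases hxX : x < X₀
      · refine ih x hx0 (hxX.le.trans ?_)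
        have : (1 : ℝ) ≤ 2 ^ n := one_le_pow₀ (by norm_num)
        nlinarith
      · have h2 := hstep x (not_lt.1 hxX)
        have h3 := ih (x / 2) (by positivity) (by rw [pow_succ] at hx; linarith)
        have h4 : (x / 2) ^ (5 / 6 : ℝ) ≤ 3 / 4 * x ^ (5 / 6 : ℝ) := by
          rw [Real.div_rpow hx0 (by norm_num)]
          have h5 : (4 / 3 : ℝ) ≤ 2 ^ (5 / 6 : ℝ) := by
            have : (2 : ℝ) ^ (1 / 2 : ℝ) ≤ 2 ^ (5 / 6 : ℝ) :=
              Real.rpow_le_rpow_of_exponent_le (by norm_num) (by norm_num)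
            refine le_trans ?_ this
            rw [← Real.sqrt_eq_rpow]
            exact Real.le_sqrt_of_sq_le (by norm_num)
          rw [div_le_iff₀ (by positivity)]
          have h6 : 0 ≤ x ^ (5 / 6 : ℝ) := by positivity
          nlinarith
        have h5 : ‖theta w x‖ ≤ ‖theta w x - theta w (x / 2)‖ + ‖theta w (x / 2)‖ := by
          have := norm_add_le (theta w x - theta w (x / 2)) (theta w (x / 2))
          rwa [sub_add_cancel] at this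
        have h6 : ε * (x / 2) ^ (5 / 6 : ℝ) ≤ ε * (3 / 4 * x ^ (5 / 6 : ℝ)) :=
          mul_le_mul_of_nonneg_left h4 hε.le
        linarith
  intro x hx0
  obtain ⟨n, hn⟩ := pow_unbounded_of_one_lt x (by norm_num : (1 : ℝ) < 2)
  refine key n x hx0 (hn.le.trans ?_)
  have : (0 : ℝ) < 2 ^ n := by positivity
  nlinarith

end Vale.Agent.P006.VR
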