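import Vale.Agent.P006.H103.Primes
import Vale.Agent.P006.H845.Final
import Vale.Agent.P006.H845.Inst
import Vale.Agent.P006.SV.T1
import Vale.Agent.P006.DN.Defs

/-!
P006 (helper103): the final sieve theorem for `wf` and the two forms of Patterson's conjecture,
from the analytic inputs.
-/

namespace Vale.Agent.P006.VR

open Vale.Agent.P006 Finset Filter Topology

theorem sqSupp_wf : SqSupp wf := by
  intro c hc
  by_contra h
  exact hc (wf_of_not (fun h' => h h'))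

theorem TRH.of_TRG {w : O → ℂ} {d η : ℝ} (h : SV.TRG w d η) : TRH w d η := h

theorem TIIH.of_TIIGen {w : O → ℂ} {d κ : ℝ} (h : SV.TIIGen w d κ) (η : ℝ) : TIIH w d κ η := by
  intro A
  obtain ⟨C, hC, h⟩ := h A
  exact ⟨C, hC, fun X hX G hG α β h1 h2 h3 h4 x hx2 hx => h X hX G hG α β h1
    (fun a ha => (h2 a ha).2) h3 (fun b hb => ⟨(h4 b hb).1, (h4 b hb).2.1⟩) x hx2 hx⟩

theorem TIIGen_of_TIIX {w : O → ℂ} {d κ : ℝ} (h : TIIX w d κ) : SV.TIIGen w d κ := by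
  intro A
  obtain ⟨C, hC, h⟩ := h A
  exact ⟨C, hC, fun X hX G hG α β h1 h2 h3 h4 x _ hx => h X hX G hG α β h1 h2 h3 h4 x hx⟩

/-- **o-form for `wf`** from rough Type I, interior Type II, centre and edge -/
theorem wf_primes_tendsto {d κ η : ℝ} (hd : 0 < d) (hκ : 0 < κ)
    (hη : 0 < η) (hη3 : η ≤ 1 / 3) (h1 : 1 / 3 + d < 1 / 2 - κ)
    (TR : TRH wf d η) (T2 : TIIH wf d κ η) (TP : TIIPH wf κ η) (TB : TIIBH wf κ η)
    (hE : EdgeH wf d η) :
    Tendsto (fun X : ℝ => ‖∑ p ∈ PP X, wf p‖ / (X ^ (5 / 6 : ℝ) / Real.log X)) atTop (𝓝 0) :=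
  primes_tendsto sqSupp_wf norm_wf_le_two hd hκ hη hη3 h1 TR T2 TP TB hE (roughCount hη) densZero

/-- the same, with rough Type I deduced from sharp Type I (T1S) and Type II without roughness -/
theorem wf_primes_tendsto' {d κ η dl : ℝ} (hd : 0 < d) (hκ : 0 < κ)
    (hη : 0 < η) (hη3 : η ≤ 1 / 3) (h1 : 1 / 3 + d + η ≤ 1 / 2 - κ) (hdl : d < dl)
    (hdl' : dl ≤ 5 / 6) (T1 : SV.T1SHyp wf dl) (T2 : SV.TIIGen wf d κ)
    (TP : TIIPH wf κ η) (TB : TIIBH wf κ η) (hE : EdgeH wf d η) :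
    Tendsto (fun X : ℝ => ‖∑ p ∈ PP X, wf p‖ / (X ^ (5 / 6 : ℝ) / Real.log X)) atTop (𝓝 0) := by
  have hsq : ∀ c, ¬ Squarefree c → wf c = 0 := fun c hc => wf_of_not (fun h => hc h.2)
  have TR : SV.TRG wf d η := by
    exact SV.tr_of hd hdl hdl' hη hκ.le h1 norm_wf_le_two hsq T1 T2
  exact wf_primes_tendsto hd hκ hη hη3 (by linarith) TR (TIIH.of_TIIGen T2 η) TP TB hE

end Vale.Agent.P006.VR
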