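import Vale.Agent.P006.H103.BV

/-!
P006, block 20a (helper103): the coefficients of Vaughan's identity belong to `ClassG`.
-/

namespace Vale.Agent.P006.VR

open Vale.Agent.P006 Finset

theorem not_dvd_of_lt {m p : O} (hm : Primary m) (hp : Prime p) (hpp : Primary p)
    (h : ∀ q ∈ pdv m, N q < N p) : ¬ p ∣ m := by
  intro hd
  have := h p ((mem_pdv hm.ne_zero).2 ⟨hpp, hp, hd⟩)
  omega

theorem one_le_N {m : O} (hm : Primary m) : (1 : ℝ) ≤ N m := by
  exact_mod_cast N_pos hm.ne_zero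

/-- general membership criterion -/
theorem classG_cut {f : O → ℂ} {z y₁ y₂ X G : ℝ} (hX : y₂ ≤ X) (hG : 0 ≤ G)
    (hb : ∀ a, Primary a → Squarefree a → Rough z a → (N a : ℝ) ≤ X → ‖f a‖ ≤ G)
    (hstr : ∀ m, Primary m → Squarefree m → Rough z m → (N m : ℝ) ≤ X → ∃ v : ℕ → ℂ, BV v G ∧
      (∀ n : ℕ, ¬ (z ≤ n ∧ y₁ < N m * n ∧ (N m : ℝ) * n ≤ y₂) → v n = 0) ∧
      ∀ p, Prime p → Primary p → ¬ p ∣ m → (z ≤ N p ∧ y₁ < N m * N p ∧ (N m : ℝ) * N p ≤ y₂) →
        f (m * p) = v (N p)) :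
    ClassG (cut z y₁ y₂ f) X G := by
  classical
  refine ⟨?_, ?_, ?_⟩
  · intro a ha
    unfold cut at ha
    by_cases h : Primary a ∧ Squarefree a ∧ Rough z a ∧ y₁ < (N a : ℝ) ∧ (N a : ℝ) ≤ y₂
    · exact ⟨h.1, h.2.1, h.2.2.2.2.trans hX⟩
    · rw [if_neg h] at ha; exact absurd rfl ha
  · intro a
    unfold cut
    split_ifs with h
    · exact hb a h.1 h.2.1 h.2.2.1 (h.2.2.2.2.trans hX)
    · simpa using hG
  · intro m hm
    by_cases hc : Squarefree m ∧ Rough z m ∧ (N m : ℝ) ≤ X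
    · obtain ⟨v, hv1, hv2, hv3⟩ := hstr m hm hc.1 hc.2.1 hc.2.2
      refine ⟨v, hv1, ?_⟩
      intro p hp hpp hq
      have hpm := not_dvd_of_lt hm hp hpp hq
      have hcast : ((N (m * p) : ℕ) : ℝ) = N m * N p := by rw [N_mul]; push_cast; rfl
      by_cases hJ : z ≤ (N p : ℝ) ∧ y₁ < N m * N p ∧ (N m : ℝ) * N p ≤ y₂
      · rw [← hv3 p hp hpp hpm hJ]
        unfold cut
        rw [if_pos]
        refine ⟨hm.mul hpp, ?_, hc.2.1.mul (rough_prime hp hJ.1), ?_, ?_⟩
        · rw [mul_comm]; exact squarefree_prime_mul hp hc.1 hpm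
        · rw [hcast]; exact hJ.2.1
        · rw [hcast]; exact hJ.2.2
      · rw [hv2 _ hJ]
        unfold cut
        rw [if_neg]
        rintro ⟨_, _, h3, h4, h5⟩
        rw [hcast] at h4 h5
        exact hJ ⟨h3 p hp (dvd_mul_left _ _), h4, h5⟩
    · refine ⟨fun _ => 0, fun n => by simpa using hG, ?_⟩
      intro p hp hpp _
      unfold cut
      rw [if_neg]
      rintro ⟨_, h2, h3, _, h5⟩
      apply hc
      refine ⟨h2.squarefree_of_dvd (dvd_mul_right _ _), h3.of_dvd (dvd_mul_right _ _), ?_⟩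
      refine le_trans ?_ (h5.trans hX)
      rw [N_mul]; push_cast
      have h6 := one_le_N hpp
      have h7 := one_le_N hm
      nlinarith

/-- interval-indicator times monotone function -/
theorem BV_int {z y₁ y₂ M : ℝ} {m : O} (hm : Primary m) {g : ℕ → ℝ} (h0 : ∀ n, 0 ≤ g n)
    (hM : ∀ n : ℕ, (N m : ℝ) * n ≤ y₂ → g n ≤ M) (hM0 : 0 ≤ M) (hg : ∀ n, g n ≤ g (n + 1))
    (Q : ℕ → Prop) [DecidablePred Q] (hQ : ∀ n, Q n → Q (n + 1)) :
    BV (fun n => ((if (z ≤ n ∧ y₁ < N m * n ∧ (N m : ℝ) * n ≤ y₂) ∧ Q n then g n else 0 : ℝ) : ℂ))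
      (2 * M) := by
  classical
  have hN := one_le_N hm
  have hN0 : (0 : ℝ) < N m := by linarith
  have h := BV.ind (P := fun n : ℕ => z ≤ n ∧ y₁ < N m * n ∧ Q n) (g := g) (hi := y₂ / N m)
    (M := M) h0 ?_ hM0 hg ?_
  · convert h using 3 with n
    congr 1
    apply propext
    rw [le_div_iff₀ hN0, mul_comm (n : ℝ)]
    tauto
  · intro n hn _
    apply hM
    rw [le_div_iff₀ hN0] at hn
    rw [mul_comm]; exact hn
  · rintro n ⟨h1, h2, h3⟩
    push_cast
    refine ⟨by linarith, by nlinarith, hQ n h3⟩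

/-! ### the constant function -/

theorem classG_one {z y₁ y₂ X : ℝ} (hX : y₂ ≤ X) : ClassG (cut z y₁ y₂ 1) X 2 := by
  classical
  refine classG_cut hX (by norm_num) (fun a _ _ _ _ => by simp) ?_
  intro m hm _ _ _
  have h := BV_int (z := z) (y₁ := y₁) (y₂ := y₂) (M := 1) hm (g := fun _ => 1) (by simp) (by simp)
    (by norm_num) (fun _ => le_rfl) (fun _ => True) (fun _ _ => trivial)
  refine ⟨_, h.mono (by norm_num), ?_, ?_⟩
  · intro n hn
    simp [hn]
  · intro p _ _ _ hJ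
    simp [hJ]

/-! ### the von Mangoldt function -/

theorem log_nat_le_succ (n : ℕ) : Real.log (n : ℝ) ≤ Real.log ((n + 1 : ℕ) : ℝ) := by
  rcases Nat.eq_zero_or_pos n with h | h
  · subst h; simp
  · exact Real.log_le_log (by exact_mod_cast h) (by push_cast; linarith)

theorem log_nat_le {n : ℕ} {X : ℝ} (hX : 1 ≤ X) (h : (n : ℝ) ≤ X) : Real.log n ≤ Real.log X := by
  rcases Nat.eq_zero_or_pos n with h0 | h0
  · subst h0; simpa using Real.log_nonneg hX
  · exact Real.log_le_log (by exact_mod_cast h0) h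

theorem classG_lamb {z y₁ y₂ X : ℝ} (hX1 : 1 ≤ X) (hX : y₂ ≤ X) :
    ClassG (cut z y₁ y₂ (fun a => (lamb a : ℂ))) X (2 * Real.log X) := by
  classical
  have hL : 0 ≤ Real.log X := Real.log_nonneg hX1
  refine classG_cut hX (by positivity) ?_ ?_
  · intro a ha _ _ haX
    rw [Complex.norm_real, Real.norm_eq_abs, abs_of_nonneg (lamb_nonneg a)]
    have h1 := lamb_le a
    have h2 := log_nat_le hX1 haX
    linarith
  · intro m hm _ _ _
    by_cases h1 : m = 1
    · have hNm : (N m : ℝ) = 1 := by rw [h1]; simp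
      have h := BV_int (z := z) (y₁ := y₁) (y₂ := y₂) (M := Real.log X) hm
        (g := fun n => Real.log n) (fun n => Real.log_natCast_nonneg n)
        (fun n hn => log_nat_le hX1 (by rw [hNm, one_mul] at hn; exact hn.trans hX)) hL
        (fun n => log_nat_le_succ n) (fun _ => True) (fun _ _ => trivial)
      refine ⟨_, h, ?_, ?_⟩
      · intro n hn
        simp [hn]
      · intro p hp _ _ hJ
        rw [h1, one_mul, lamb_prime hp]
        have : (z ≤ (N p : ℝ) ∧ y₁ < N m * N p ∧ (N m : ℝ) * N p ≤ y₂) ∧ True := ⟨hJ, trivial⟩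
        rw [h1] at this
        simp only [if_pos this]
    · refine ⟨fun _ => 0, BV.zero.mono (by positivity), fun _ _ => rfl, ?_⟩
      intro p hp hpp _ _
      rw [lamb_of_not_prime]
      · simp
      · intro h
        rcases h.irreducible.isUnit_or_isUnit rfl with h2 | h2
        · exact h1 (hm.eq_one h2)
        · exact hp.not_isUnit h2

/-! ### the coefficient `bet` -/

theorem tau_squarefree_le : ∀ c : O, Primary c → Squarefree c → tau c ≤ 2 ^ (pdv c).card := by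
  refine Primary.induction ?_ ?_
  · intro _
    rw [pdv_one, tau, dvs_one]; simp
  · intro p k hp hpp hk ih hsq
    have hsk : Squarefree k := hsq.squarefree_of_dvd (Dvd.intro_left p rfl)
    have hpk : ¬ p ∣ k := fun h => hp.not_isUnit (hsq p (mul_dvd_mul_left p h))
    have h1 : tau p ≤ 2 := by
      have := tau_prime_pow_le hp hpp 1
      rwa [pow_one] at this
    have h2 : (pdv (p * k)).card = (pdv k).card + 1 := by
      rw [pdv_mul hpp hk, pdv_prime hp hpp, card_union_of_disjoint, card_singleton, add_comm]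
      rw [disjoint_singleton_left, mem_pdv hk.ne_zero]
      exact fun h => hpk h.2.2
    rw [h2, pow_succ]
    calc tau (p * k) ≤ tau p * tau k := tau_mul_le hpp hk
      _ ≤ 2 * 2 ^ (pdv k).card := Nat.mul_le_mul h1 (ih hsk)
      _ = _ := by ring

/-- for `X^η`-rough squarefree `c` with `N c ≤ X`: `τ(c) ≤ 2^{1/η}` -/
theorem tau_rough_le {X η : ℝ} (hX : 1 < X) (hη : 0 < η) {c : O} (hc : Primary c)
    (hsq : Squarefree c) (hr : Rough (X ^ η) c) (hN : (N c : ℝ) ≤ X) :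
    (tau c : ℝ) ≤ 2 ^ (1 / η) := by
  have h1 := card_pdv_rough_le (Real.one_lt_rpow hX hη) hc hr
  have h2 : ((X ^ η) ^ (pdv c).card : ℝ) ≤ X := h1.trans hN
  have h3 : ((pdv c).card : ℝ) ≤ 1 / η := by
    rw [← Real.rpow_natCast, ← Real.rpow_mul (by linarith)] at h2
    have h4 : X ^ (η * ((pdv c).card : ℝ)) ≤ X ^ (1 : ℝ) := by rwa [Real.rpow_one]
    have h5 := (Real.rpow_le_rpow_left_iff hX).1 h4
    rw [le_div_iff₀ hη]; linarith
  calc (tau c : ℝ) ≤ ((2 ^ (pdv c).card : ℕ) : ℝ) := by exact_mod_cast tau_squarefree_le c hc hsq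
    _ = (2 : ℝ) ^ ((pdv c).card : ℝ) := by push_cast; rw [Real.rpow_natCast]
    _ ≤ 2 ^ (1 / η) := Real.rpow_le_rpow_of_exponent_le (by norm_num) h3

theorem abs_bet_le (U : ℝ) (b : O) : |bet U b| ≤ tau b := by
  rw [bet]
  calc |∑ m ∈ dvs b, if U < (N m : ℝ) then mu m else 0|
      ≤ ∑ m ∈ dvs b, |if U < (N m : ℝ) then mu m else 0| := abs_sum_le_sum_abs _ _
    _ ≤ ∑ m ∈ dvs b, 1 := by
        refine sum_le_sum fun m _ => ?_
        split_ifs
        · exact (abs_mu m).le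
        · simp
    _ = tau b := by simp [tau]

theorem bet_eq_zero {U : ℝ} {b : O} (hb : Primary b) (h : (N b : ℝ) ≤ U) : bet U b = 0 := by
  rw [bet]
  refine sum_eq_zero fun m hm => if_neg ?_
  rw [mem_dvs hb.ne_zero] at hm
  refine not_lt.2 (le_trans ?_ h)
  exact_mod_cast Nat.le_of_dvd (N_pos hb.ne_zero) (N_dvd_N hm.2)

theorem bet_mul_prime {U : ℝ} {m p : O} (hm : Primary m) (hp : Prime p) (hpp : Primary p)
    (h : ¬ p ∣ m) : bet U (m * p) = ∑ e ∈ dvs m, mu e *
      ((if U < (N e : ℝ) then 1 else 0) - (if U < (N p : ℝ) * N e then 1 else 0)) := by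
  have hc : IsCoprime p m := (hp.irreducible.coprime_iff_not_dvd).2 h
  rw [bet, mul_comm m p, sum_dvs_mul hpp hp hm hc, ← sum_add_distrib]
  refine sum_congr rfl fun e he => ?_
  rw [mem_dvs hm.ne_zero] at he
  rw [mu_mul hp he.1.ne_zero, N_mul]
  push_cast
  split_ifs <;> ring

theorem classG_bet {η y₁ y₂ X U : ℝ} (hX1 : 1 < X) (hη : 0 < η) (hX : y₂ ≤ X) :
    ClassG (cut (X ^ η) y₁ y₂ (fun a => (bet U a : ℂ))) X (4 * 2 ^ (1 / η)) := by
  classical
  refine classG_cut hX (by positivity) ?_ ?_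
  · intro a ha hsq hr haX
    rw [Complex.norm_real, Real.norm_eq_abs]
    have h1 := abs_bet_le U a
    have h2 := tau_rough_le hX1 hη ha hsq hr haX
    have h3 : (0 : ℝ) ≤ 2 ^ (1 / η) := by positivity
    linarith
  · intro m hm hsq hr hmX
    -- the two pieces
    have hA : ∀ e ∈ dvs m, BV (fun n => (mu e : ℂ) * ((if (X ^ η ≤ (n : ℝ) ∧ y₁ < N m * n ∧
        (N m : ℝ) * n ≤ y₂) ∧ U < (N e : ℝ) then (1 : ℝ) else 0 : ℝ) : ℂ)) (1 * (2 * 1)) := by
      intro e _
      have h := (BV_int (z := X ^ η) (y₁ := y₁) (y₂ := y₂) (M := 1) hm (g := fun _ => 1)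
        (by simp) (by simp) (by norm_num) (fun _ => le_rfl) (fun _ => U < (N e : ℝ))
        (fun _ h => h)).smul (mu e : ℂ)
      rw [Complex.norm_real, Real.norm_eq_abs, abs_mu] at h
      exact h
    have hB : ∀ e ∈ dvs m, BV (fun n => (-(mu e) : ℂ) * ((if (X ^ η ≤ (n : ℝ) ∧ y₁ < N m * n ∧
        (N m : ℝ) * n ≤ y₂) ∧ U < (n : ℝ) * N e then (1 : ℝ) else 0 : ℝ) : ℂ)) (1 * (2 * 1)) := by
      intro e _
      have h := (BV_int (z := X ^ η) (y₁ := y₁) (y₂ := y₂) (M := 1) hm (g := fun _ => 1)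
        (by simp) (by simp) (by norm_num) (fun _ => le_rfl) (fun n => U < (n : ℝ) * N e)
        (fun n h => by
          push_cast
          have : (0 : ℝ) ≤ N e := by positivity
          nlinarith)).smul (-(mu e) : ℂ)
      rw [norm_neg, Complex.norm_real, Real.norm_eq_abs, abs_mu] at h
      exact h
    have hS := (BV.sum (dvs m) _ _ hA).add (BV.sum (dvs m) _ _ hB)
    refine ⟨_, hS.mono ?_, ?_, ?_⟩
    · have h2 := tau_rough_le hX1 hη hm hsq hr hmX
      rw [sum_const, nsmul_eq_mul]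
      have : ((dvs m).card : ℝ) = tau m := rfl
      rw [this]
      linarith
    · intro n hn
      have h1 : ∀ Q : Prop, ¬ ((X ^ η ≤ (n : ℝ) ∧ y₁ < N m * n ∧ (N m : ℝ) * n ≤ y₂) ∧ Q) :=
        fun Q h => hn h.1
      simp only [if_neg (h1 _), Complex.ofReal_zero, mul_zero, sum_const_zero, add_zero]
    · intro p hp hpp hpm hJ
      rw [bet_mul_prime hm hp hpp hpm]
      push_cast
      rw [← sum_add_distrib]
      refine sum_congr rfl fun e _ => ?_
      by_cases h1 : U < (N e : ℝ) <;> by_cases h2 : U < (N p : ℝ) * N e <;>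
        simp [h1, h2, hJ]

/-! ### the coefficient `cq` -/

theorem abs_cq_le (U V : ℝ) {q : O} (hq : Primary q) (hsq : Squarefree q) :
    |cq U V q| ≤ Real.log (N q) := by
  rw [cq, ← sum_lamb q hq hsq]
  refine (abs_sum_le_sum_abs _ _).trans (sum_le_sum fun l _ => ?_)
  split_ifs
  · rw [abs_mul, abs_neg, abs_mu, one_mul, abs_of_nonneg (lamb_nonneg l)]
  · rw [abs_zero]; exact lamb_nonneg l

theorem cq_eq_zero {U V : ℝ} (hU : 0 ≤ U) {q : O} (h : U * V < (N q : ℝ)) : cq U V q = 0 := by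
  rw [cq]
  refine sum_eq_zero fun l _ => if_neg ?_
  rintro ⟨h1, h2⟩
  have := mul_le_mul_of_nonneg_left h1 hU
  linarith

theorem cq_mul_prime {U V : ℝ} {m p : O} (hm : Primary m) (hp : Prime p) (hpp : Primary p)
    (h : ¬ p ∣ m) : cq U V (m * p) =
      ∑ l ∈ dvs m, (if (N l : ℝ) ≤ V ∧ (N m : ℝ) * N p ≤ U * N l then mu m * lamb l else 0)
      + (if (N p : ℝ) ≤ V ∧ (N m : ℝ) ≤ U then mu m * Real.log (N p) else 0) := by
  have hc : IsCoprime p m := (hp.irreducible.coprime_iff_not_dvd).2 h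
  have hmu : mu (m * p) = - mu m := by rw [mul_comm]; exact mu_mul hp hm.ne_zero
  have hcast : ((N (m * p) : ℕ) : ℝ) = N m * N p := by rw [N_mul]; push_cast; rfl
  rw [cq, hmu, neg_neg, hcast]
  conv_lhs => rw [mul_comm m p]
  rw [sum_dvs_mul hpp hp hm hc]
  congr 1
  have h2 : ∀ e ∈ dvs m, e ≠ 1 → (if ((N (p * e) : ℕ) : ℝ) ≤ V ∧ (N m : ℝ) * N p ≤
      U * (N (p * e) : ℕ) then mu m * lamb (p * e) else 0) = 0 := by
    intro e he h1
    rw [mem_dvs hm.ne_zero] at he
    rw [lamb_of_not_prime, mul_zero, ite_self]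
    intro h3
    rcases h3.irreducible.isUnit_or_isUnit rfl with h4 | h4
    · exact hp.not_isUnit h4
    · exact h1 (he.1.eq_one h4)
  rw [sum_eq_single_of_mem 1 hm.one_mem_dvs h2, mul_one, lamb_prime hp]
  have hNp : (0 : ℝ) < N p := by exact_mod_cast N_pos hp.ne_zero
  have h5 : (N m : ℝ) * N p ≤ U * N p ↔ (N m : ℝ) ≤ U := mul_le_mul_iff_left₀ hNp
  simp only [h5]

theorem classG_cq {z y₁ y₂ X U V : ℝ} (hX1 : 1 ≤ X) (hX : y₂ ≤ X) :
    ClassG (cut z y₁ y₂ (fun a => (cq U V a : ℂ))) X (4 * Real.log X) := by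
  classical
  have hL : 0 ≤ Real.log X := Real.log_nonneg hX1
  refine classG_cut hX (by positivity) ?_ ?_
  · intro a ha hsq hr haX
    rw [Complex.norm_real, Real.norm_eq_abs]
    have h1 := abs_cq_le U V ha hsq
    have h2 := log_nat_le hX1 haX
    linarith
  · intro m hm hsq hr hmX
    have hNm := one_le_N hm
    -- sum over `l ∣ m`: `[n N m ≤ U N l]` is a shrinking condition, write it as `1 - [n N m > U N l]`
    have hA : ∀ l ∈ dvs m, BV (fun n => ((if (N l : ℝ) ≤ V then mu m * lamb l else 0 : ℝ) : ℂ) *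
        ((if (z ≤ (n : ℝ) ∧ y₁ < N m * n ∧ (N m : ℝ) * n ≤ min y₂ (U * N l)) ∧ True
          then (1 : ℝ) else 0 : ℝ) : ℂ)) (lamb l * (2 * 1)) := by
      intro l _
      have h := (BV_int (z := z) (y₁ := y₁) (y₂ := min y₂ (U * N l)) (M := 1) hm (g := fun _ => 1)
        (by simp) (by simp) (by norm_num) (fun _ => le_rfl) (fun _ => True)
        (fun _ _ => trivial)).smul ((if (N l : ℝ) ≤ V then mu m * lamb l else 0 : ℝ) : ℂ)
      refine h.mono (mul_le_mul_of_nonneg_right ?_ (by norm_num))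
      rw [Complex.norm_real, Real.norm_eq_abs]
      split_ifs
      · rw [abs_mul, abs_mu, one_mul, abs_of_nonneg (lamb_nonneg l)]
      · rw [abs_zero]; exact lamb_nonneg l
    have hB : BV (fun n => ((if (N m : ℝ) ≤ U then mu m else 0 : ℝ) : ℂ) *
        ((if (z ≤ (n : ℝ) ∧ y₁ < N m * n ∧ (N m : ℝ) * n ≤ min y₂ (N m * V)) ∧ True
          then Real.log n else 0 : ℝ) : ℂ)) (1 * (2 * Real.log X)) := by
      have h := (BV_int (z := z) (y₁ := y₁) (y₂ := min y₂ (N m * V)) (M := Real.log X) hm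
        (g := fun n => Real.log n) (fun n => Real.log_natCast_nonneg n)
        (fun n hn => log_nat_le hX1 (by
          have h1 : (N m : ℝ) * n ≤ X := hn.trans ((min_le_left _ _).trans hX)
          have h2 : (0 : ℝ) ≤ n := by positivity
          nlinarith)) hL
        (fun n => log_nat_le_succ n) (fun _ => True)
        (fun _ _ => trivial)).smul ((if (N m : ℝ) ≤ U then mu m else 0 : ℝ) : ℂ)
      refine h.mono (mul_le_mul_of_nonneg_right ?_ (by positivity))
      rw [Complex.norm_real, Real.norm_eq_abs]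
      split_ifs
      · exact (abs_mu m).le
      · simp
    have hS := (BV.sum (dvs m) _ _ hA).add hB
    refine ⟨_, hS.mono ?_, ?_, ?_⟩
    · rw [← sum_mul, sum_lamb m hm hsq]
      have := log_nat_le hX1 hmX
      linarith
    · intro n hn
      have h1 : ∀ t : ℝ, ¬ ((z ≤ (n : ℝ) ∧ y₁ < N m * n ∧ (N m : ℝ) * n ≤ min y₂ t) ∧ True) :=
        fun t h => hn ⟨h.1.1, h.1.2.1, h.1.2.2.trans (min_le_left _ _)⟩
      simp only [if_neg (h1 _), Complex.ofReal_zero, mul_zero, sum_const_zero, add_zero]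
    · intro p hp hpp hpm hJ
      rw [cq_mul_prime hm hp hpp hpm]
      push_cast
      congr 1
      · refine sum_congr rfl fun l _ => ?_
        have h3 : ((z ≤ (N p : ℝ) ∧ y₁ < N m * N p ∧ (N m : ℝ) * N p ≤ min y₂ (U * N l)) ∧ True) ↔
            (N m : ℝ) * N p ≤ U * N l := by
          rw [le_min_iff]; tauto
        by_cases h1 : (N l : ℝ) ≤ V <;> by_cases h2 : (N m : ℝ) * N p ≤ U * N l <;>
          simp [h1, h2, hJ]
      · have hN0 : (0 : ℝ) < N m := by linarith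
        have h3 : (N m : ℝ) * N p ≤ N m * V ↔ (N p : ℝ) ≤ V := mul_le_mul_iff_right₀ hN0
        by_cases h1 : (N m : ℝ) ≤ U <;> by_cases h2 : (N p : ℝ) ≤ V <;>
          simp [h1, h2, h3, hJ]

end Vale.Agent.P006.VR
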