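import Vale.Agent.P006.H103.Mem

/-!
P006, block 20a (helper103): `μ` and `μ log N` belong to `ClassG`.
-/

namespace Vale.Agent.P006.VR

open Vale.Agent.P006 Finset

theorem mu_mul_prime {m p : O} (hm : Primary m) (hp : Prime p) : mu (m * p) = - mu m := by
  rw [mul_comm]; exact mu_mul hp hm.ne_zero

theorem classG_mu {z y₁ y₂ X : ℝ} (hX : y₂ ≤ X) :
    ClassG (cut z y₁ y₂ (fun a => (mu a : ℂ))) X 2 := by
  classical
  refine classG_cut hX (by norm_num) ?_ ?_
  · intro a _ _ _ _
    rw [Complex.norm_real, Real.norm_eq_abs, abs_mu]; norm_num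
  · intro m hm _ _ _
    have h := (BV_int (z := z) (y₁ := y₁) (y₂ := y₂) (M := 1) hm (g := fun _ => 1) (by simp)
      (by simp) (by norm_num) (fun _ => le_rfl) (fun _ => True)
      (fun _ _ => trivial)).smul (-(mu m) : ℂ)
    refine ⟨_, h.mono (le_of_eq ?_), ?_, ?_⟩
    · rw [norm_neg, Complex.norm_real, Real.norm_eq_abs, abs_mu]; norm_num
    · intro n hn
      simp [hn]
    · intro p hp _ _ hJ
      rw [mu_mul_prime hm hp]
      simp [hJ]

theorem classG_mulog {z y₁ y₂ X : ℝ} (hX1 : 1 ≤ X) (hX : y₂ ≤ X) :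
    ClassG (cut z y₁ y₂ (fun a => (mu a : ℂ) * (Real.log (N a) : ℂ))) X (2 * Real.log X) := by
  classical
  have hL : 0 ≤ Real.log X := Real.log_nonneg hX1
  refine classG_cut hX (by positivity) ?_ ?_
  · intro a _ _ _ haX
    rw [norm_mul, Complex.norm_real, Real.norm_eq_abs, abs_mu, one_mul, Complex.norm_real,
      Real.norm_eq_abs, abs_of_nonneg (Real.log_natCast_nonneg _)]
    have := log_nat_le hX1 haX
    linarith
  · intro m hm _ _ _
    have hmono : ∀ n : ℕ, Real.log ((N m * n : ℕ) : ℝ) ≤ Real.log ((N m * (n + 1) : ℕ) : ℝ) := by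
      intro n
      rcases Nat.eq_zero_or_pos n with h | h
      · subst h; simp [Real.log_natCast_nonneg]
      · apply Real.log_le_log
        · exact_mod_cast Nat.mul_pos (N_pos hm.ne_zero) h
        · exact_mod_cast Nat.mul_le_mul_left _ (Nat.le_succ n)
    have h := (BV_int (z := z) (y₁ := y₁) (y₂ := y₂) (M := Real.log X) hm
      (g := fun n => Real.log ((N m * n : ℕ) : ℝ)) (fun n => Real.log_natCast_nonneg _)
      (fun n hn => log_nat_le hX1 (by push_cast; exact hn.trans hX)) hL
      hmono (fun _ => True) (fun _ _ => trivial)).smul (-(mu m) : ℂ)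
    refine ⟨_, h.mono (le_of_eq ?_), ?_, ?_⟩
    · rw [norm_neg, Complex.norm_real, Real.norm_eq_abs, abs_mu, one_mul]
    · intro n hn
      simp only [if_neg (fun h : _ ∧ True => hn h.1), Complex.ofReal_zero, mul_zero]
    · intro p hp _ _ hJ
      rw [mu_mul_prime hm hp, N_mul]
      simp only [if_pos (⟨hJ, trivial⟩ : _ ∧ True)]
      push_cast
      ring

end Vale.Agent.P006.VR
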