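import Vale.Agent.P006.H103.Edge

/-!
P006, block 20a (helper103): the pieces of Vaughan's identity as bilinear sums, and their bounds.
-/

namespace Vale.Agent.P006.VR

open Vale.Agent.P006 Finset

theorem cut_cut {z y₁ y₂ y₃ : ℝ} (h : y₂ ≤ y₃) (f : O → ℂ) :
    cut z y₁ y₃ (cut z y₁ y₂ f) = cut z y₁ y₂ f := by
  funext a
  by_cases h1 : Primary a ∧ Squarefree a ∧ Rough z a ∧ y₁ < (N a : ℝ) ∧ (N a : ℝ) ≤ y₂
  · rw [cut_of ⟨h1.1, h1.2.1, h1.2.2.1, h1.2.2.2.1, h1.2.2.2.2.trans h⟩]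
  · rw [cut_not h1]
    by_cases h2 : Primary a ∧ Squarefree a ∧ Rough z a ∧ y₁ < (N a : ℝ) ∧ (N a : ℝ) ≤ y₃
    · rw [cut_of h2, cut_not h1]
    · rw [cut_not h2]

theorem cut_cut' {z y₁ y₂ y₃ : ℝ} (h : y₂ ≤ y₃) (f : O → ℂ) :
    cut z y₁ y₂ (cut z y₁ y₃ f) = cut z y₁ y₂ f := by
  funext a
  by_cases h1 : Primary a ∧ Squarefree a ∧ Rough z a ∧ y₁ < (N a : ℝ) ∧ (N a : ℝ) ≤ y₂
  · rw [cut_of h1, cut_of ⟨h1.1, h1.2.1, h1.2.2.1, h1.2.2.2.1, h1.2.2.2.2.trans h⟩, cut_of h1]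
  · rw [cut_not h1, cut_not h1]

/-- use of the Type I hypothesis -/
theorem tr_apply {w : O → ℂ} {d η : ℝ} (TR : TRH w d η) : ∀ A : ℕ, ∃ C : ℝ, 0 ≤ C ∧
    ∀ X : ℝ, 3 ≤ X → ∀ G : ℝ, 1 ≤ G → ∀ f : O → ℂ, ∀ y₂ : ℝ, y₂ ≤ X ^ (1 / 3 + d) →
    ClassG (cut (X ^ η) 0 y₂ f) X G → ∀ x : ℝ, X / 2 ≤ x → x ≤ X →
    ‖Bil w (cut (X ^ η) 0 y₂ f) (cut (X ^ η) 0 X 1) x‖ ≤
      C * G * X ^ (5 / 6 : ℝ) / Real.log X ^ A := by
  intro A
  obtain ⟨C, hC, h⟩ := TR A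
  refine ⟨C, hC, ?_⟩
  intro X hX G hG f y₂ hy₂ hf x hx2 hx
  have h1 := h X hX G hG (cut (X ^ η) 0 y₂ f) hf x hx2 hx
  rwa [cut_cut hy₂] at h1

theorem smul_supp {c : ℂ} {β : O → ℂ} {b : O} (h : c * β b ≠ 0) : β b ≠ 0 := by
  intro h1; rw [h1, mul_zero] at h; exact h rfl

/-- use of the interior Type II hypothesis -/
theorem tii_apply {w : O → ℂ} {d κ η : ℝ} (T2 : TIIH w d κ η) : ∀ A : ℕ, ∃ C : ℝ, 0 ≤ C ∧
    ∀ X : ℝ, 3 ≤ X → ∀ G K : ℝ, 1 ≤ G → 0 < K → ∀ f g : O → ℂ, ∀ y' y'' : ℝ,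
    ClassG (cut (X ^ η) (X ^ (1 / 3 + d)) (X ^ (1 / 2 - κ)) f) X G → y'' ≤ X →
    Bd (X ^ η) X g K → ∀ x : ℝ, X / 2 ≤ x → x ≤ X →
    ‖Bil w (cut (X ^ η) (X ^ (1 / 3 + d)) (X ^ (1 / 2 - κ)) f) (cut (X ^ η) y' y'' g) x‖ ≤
      C * G * K * X ^ (5 / 6 : ℝ) / Real.log X ^ A := by
  intro A
  obtain ⟨C, hC, h⟩ := T2 A
  refine ⟨C, hC, ?_⟩
  intro X hX G K hG hK f g y' y'' hcl hy hg x hx2 hx
  have h1 := h X hX G hG _ (fun b => ((1 / K : ℝ) : ℂ) * cut (X ^ η) y' y'' g b) hcl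
    (fun a ha => ⟨(cut_ne ha).2.2.1, (cut_ne ha).2.2.2.1, (cut_ne ha).2.2.2.2⟩) ?_ ?_ x hx2 hx
  · rw [Bil_smul_right, norm_mul, Complex.norm_real, Real.norm_eq_abs,
      abs_of_nonneg (by positivity)] at h1
    rw [one_div_mul_eq_div, div_le_iff₀ hK] at h1
    refine h1.trans (le_of_eq ?_)
    ring
  · intro b
    have h2 := norm_cut_le (y₁ := y') hK.le hy hg b
    rw [norm_mul, Complex.norm_real, Real.norm_eq_abs, abs_of_nonneg (by positivity),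
      one_div_mul_eq_div, div_le_one hK]
    exact h2
  · intro b hb
    have h2 := cut_ne (smul_supp hb)
    exact ⟨h2.1, h2.2.1, h2.2.2.1⟩

/-- use of the central hypothesis for primes -/
theorem tiip_apply {w : O → ℂ} {κ η : ℝ} (T2 : TIIPH w κ η) : ∀ A : ℕ, ∃ C : ℝ, 0 ≤ C ∧
    ∀ X : ℝ, 3 ≤ X → ∀ K : ℝ, 0 < K → ∀ g : O → ℂ, ∀ y' y'' : ℝ, y'' ≤ X →
    Bd (X ^ η) X g K → ∀ x : ℝ, X / 2 ≤ x → x ≤ X →
    ‖Bil w (cut (X ^ η) (X ^ (1 / 2 - κ)) (X ^ (1 / 2 + κ)) (fun a => (lamb a : ℂ)))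
      (cut (X ^ η) y' y'' g) x‖ ≤ C * K * X ^ (5 / 6 : ℝ) / Real.log X ^ A := by
  intro A
  obtain ⟨C, hC, h⟩ := T2 A
  refine ⟨C, hC, ?_⟩
  intro X hX K hK g y' y'' hy hg x hx2 hx
  have h1 := h X hX (fun b => ((1 / K : ℝ) : ℂ) * cut (X ^ η) y' y'' g b) ?_ ?_ x hx2 hx
  · rw [Bil_smul_right, norm_mul, Complex.norm_real, Real.norm_eq_abs,
      abs_of_nonneg (by positivity)] at h1
    rw [one_div_mul_eq_div, div_le_iff₀ hK] at h1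
    refine h1.trans (le_of_eq ?_)
    ring
  · intro b
    have h2 := norm_cut_le (y₁ := y') hK.le hy hg b
    rw [norm_mul, Complex.norm_real, Real.norm_eq_abs, abs_of_nonneg (by positivity),
      one_div_mul_eq_div, div_le_one hK]
    exact h2
  · intro b hb
    have h2 := cut_ne (smul_supp hb)
    exact ⟨h2.1, h2.2.1, h2.2.2.1⟩

/-- use of the central hypothesis for products -/
theorem tiib_apply {w : O → ℂ} {κ η : ℝ} (T2 : TIIBH w κ η) : ∀ A : ℕ, ∃ C : ℝ, 0 ≤ C ∧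
    ∀ X : ℝ, 3 ≤ X → ∀ x : ℝ, X / 2 ≤ x → x ≤ X →
    ‖Bil w (cut (X ^ η) (X ^ (1 / 2 - κ)) (X ^ (1 / 2 + κ))
      (fun a => (cq (X ^ (1 / 3 : ℝ)) (X ^ (1 / 3 : ℝ)) a : ℂ)))
      (cut (X ^ η) 0 X 1) x‖ ≤ C * X ^ (5 / 6 : ℝ) / Real.log X ^ A := by
  intro A
  obtain ⟨C, hC, h⟩ := T2 A
  refine ⟨C, hC, ?_⟩
  intro X hX x hx2 hx
  refine h X hX _ ?_ ?_ x hx2 hx
  · intro b
    exact norm_cut_le (X := X) (by norm_num) le_rfl (fun a _ _ _ _ => by simp) b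
  · intro b hb
    exact ⟨(cut_ne hb).1, (cut_ne hb).2.1, (cut_ne hb).2.2.1⟩

/-! ### the three sums of Vaughan's identity -/

theorem cut_log {z y₁ y₂ : ℝ} (w : O → ℂ) (c : O) :
    cut z y₁ y₂ (fun c => (Real.log (N c) : ℂ) * w c) c = (Real.log (N c) : ℂ) * cut z y₁ y₂ w c := by
  by_cases h : Primary c ∧ Squarefree c ∧ Rough z c ∧ y₁ < (N c : ℝ) ∧ (N c : ℝ) ≤ y₂
  · rw [cut_of h, cut_of h]
  · rw [cut_not h, cut_not h, mul_zero]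

open Classical in
theorem cut_le {z X U : ℝ} (hU : U ≤ X) (f : O → ℂ) :
    cut z 0 X (fun a => if (N a : ℝ) ≤ U then f a else 0) = cut z 0 U f := by
  funext a
  unfold cut
  by_cases h1 : (N a : ℝ) ≤ U
  · have h2 : (N a : ℝ) ≤ X := h1.trans hU
    simp [h1, h2]
  · simp [h1]

open Classical in
theorem cut_gt {z X V : ℝ} (hV : 0 ≤ V) (f : O → ℂ) :
    cut z 0 X (fun a => if V < (N a : ℝ) then f a else 0) = cut z V X f := by
  funext a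
  unfold cut
  by_cases h1 : V < (N a : ℝ)
  · have h2 : (0 : ℝ) < N a := hV.trans_lt h1
    simp [h1, h2]
  · simp [h1]

theorem s1_eq {w : O → ℂ} (hw : SqSupp w) {z x X U : ℝ} (hU : U ≤ X) (hx : x ≤ X) :
    ∑ m ∈ (PB x).filter (fun m => (N m : ℝ) ≤ U), (mu m : ℂ) *
        ∑ n ∈ PB (x / N m), (Real.log (N n) : ℂ) * cut z 0 X w (m * n) =
    Bil (fun c => (Real.log (N c) : ℂ) * w c) (cut z 0 U (fun a => (mu a : ℂ))) (cut z 0 X 1) x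
    - Bil w (cut z 0 U (fun a => (mu a : ℂ) * (Real.log (N a) : ℂ))) (cut z 0 X 1) x := by
  classical
  have hw' : SqSupp (fun c => (Real.log (N c) : ℂ) * w c) := fun c hc =>
    hw c (right_ne_zero_of_mul hc)
  rw [← cut_le hU, ← cut_le hU, ← Bil_insert hw' hx, ← Bil_insert hw hx]
  unfold Bil
  rw [← sum_sub_distrib, sum_filter]
  refine sum_congr rfl fun m hm => ?_
  rw [mem_PB] at hm
  by_cases h : (N m : ℝ) ≤ U
  · simp only [if_pos h]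
    rw [mul_assoc, ← mul_sub]
    congr 1
    rw [mul_sum, ← sum_sub_distrib]
    refine sum_congr rfl fun n hn => ?_
    rw [mem_PB] at hn
    have h1 : (Real.log (N (m * n)) : ℂ) = (Real.log (N m) : ℂ) + (Real.log (N n) : ℂ) := by
      rw [N_mul, Nat.cast_mul, Real.log_mul]
      · push_cast; rfl
      · exact_mod_cast (N_pos hm.1.ne_zero).ne'
      · exact_mod_cast (N_pos hn.1.ne_zero).ne'
    rw [cut_log, h1]
    simp only [Pi.one_apply, one_mul]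
    ring
  · simp only [if_neg h, zero_mul, sub_zero]

theorem s2_eq {w : O → ℂ} (hw : SqSupp w) {z x X U V : ℝ} (hx : x ≤ X) :
    ∑ q ∈ PB x, (cq U V q : ℂ) * ∑ n ∈ PB (x / N q), cut z 0 X w (q * n) =
    Bil w (cut z 0 X (fun a => (cq U V a : ℂ))) (cut z 0 X 1) x := by
  rw [← Bil_insert hw hx]
  unfold Bil
  refine sum_congr rfl fun m _ => ?_
  congr 1
  refine sum_congr rfl fun n _ => ?_
  simp

theorem s3_eq {w : O → ℂ} (hw : SqSupp w) {z x X U V : ℝ} (hV : 0 ≤ V) (hx : x ≤ X) :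
    ∑ l ∈ (PB x).filter (fun l => V < (N l : ℝ)), (lamb l : ℂ) *
        ∑ b ∈ PB (x / N l), (bet U b : ℂ) * cut z 0 X w (l * b) =
    Bil w (cut z V X (fun a => (lamb a : ℂ))) (cut z 0 X (fun b => (bet U b : ℂ))) x := by
  classical
  rw [← cut_gt hV, ← Bil_insert hw hx]
  unfold Bil
  rw [sum_filter]
  refine sum_congr rfl fun m _ => ?_
  by_cases h : V < (N m : ℝ)
  · simp only [if_pos h]
  · simp only [if_neg h, zero_mul]

/-- the sum over primes above `V` as Vaughan's left side -/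
theorem theta_eq {w : O → ℂ} {z x X V : ℝ} (hz : z ≤ V) (hx : x ≤ X) :
    ∑ c ∈ (PB x).filter (fun c => V < (N c : ℝ)), (lamb c : ℂ) * cut z 0 X w c =
    ∑ c ∈ (PB x).filter (fun c => V < (N c : ℝ)), (lamb c : ℂ) * w c := by
  classical
  refine sum_congr rfl fun c hc => ?_
  rw [mem_filter, mem_PB] at hc
  by_cases hp : Prime c
  · rw [cut_of]
    refine ⟨hc.1.1, hp.irreducible.squarefree, rough_prime hp (hz.trans hc.2.le), ?_,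
      hc.1.2.trans hx⟩
    exact_mod_cast N_pos hc.1.1.ne_zero
  · rw [lamb_of_not_prime hp]; simp

end Vale.Agent.P006.VR
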