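import Vale.Agent.P006.H103.Final

/-!
P006, block 20a (helper103): the final sieve theorem, in `o(X^{5/6}/log X)` form.
-/

namespace Vale.Agent.P006.VR

open Vale.Agent.P006 Finset Filter Topology

/-- weight `1/log max(n,y)` -/
theorem BV_inv_log {y : ℝ} (hy : 1 < y) :
    BV (fun n : ℕ => ((1 / Real.log (max (n : ℝ) y) : ℝ) : ℂ)) (1 / Real.log y) := by
  have hly : 0 < Real.log y := Real.log_pos hy
  have hpos : ∀ n : ℕ, 0 < Real.log (max (n : ℝ) y) := fun n =>
    Real.log_pos (hy.trans_le (le_max_right _ _))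
  have h := BV.of_anti (g := fun n : ℕ => 1 / Real.log (max (n : ℝ) y))
    (fun n => (one_div_pos.2 (hpos n)).le) (fun n => by
      apply one_div_le_one_div_of_le (hpos n)
      apply Real.log_le_log (by positivity)
      exact max_le_max (by push_cast; linarith) le_rfl)
  have h0 : max ((0 : ℕ) : ℝ) y = y := max_eq_right (by push_cast; linarith)
  simp only [h0] at h
  exact h

theorem sum_primes_le {w : O → ℂ} {B ε K : ℝ} (hB : ∀ c, ‖w c‖ ≤ B) (hε : 0 ≤ ε) (hK : 0 ≤ K)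
    (hθ : ∀ x : ℝ, 0 ≤ x → ‖theta w x‖ ≤ ε * x ^ (5 / 6 : ℝ) + K) {X : ℝ} (hX : 1 < X) :
    ‖∑ p ∈ PP X, w p‖ ≤ 2 / Real.log X * (ε * X ^ (5 / 6 : ℝ) + K)
      + 4 * B * X ^ (1 / 2 : ℝ) := by
  classical
  have hX0 : 0 < X := by linarith
  have hB0 : 0 ≤ B := (norm_nonneg _).trans (hB 0)
  set y : ℝ := X ^ (1 / 2 : ℝ) with hy
  have hy1 : 1 < y := Real.one_lt_rpow hX (by norm_num)
  have hly : Real.log y = Real.log X / 2 := by rw [hy, Real.log_rpow hX0]; ring
  have hlX : 0 < Real.log X := Real.log_pos hX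
  set g : ℕ → ℂ := fun n : ℕ => ((1 / Real.log (max (n : ℝ) y) : ℝ) : ℂ) with hg
  have hM0 : 0 ≤ ε * X ^ (5 / 6 : ℝ) + K := by positivity
  have h1 : ‖∑ p ∈ PP X, g (N p) * ((Real.log (N p) : ℂ) * w p)‖ ≤
      1 / Real.log y * (ε * X ^ (5 / 6 : ℝ) + K) := by
    refine abel_bound (PP X) N _ (BV_inv_log hy1) hM0 ?_
    intro k
    have h2 : ∑ p ∈ PP X with N p ≤ k, (Real.log (N p) : ℂ) * w p =
        theta w (min X k) := by
      rw [theta_eq_PP]
      refine sum_congr ?_ fun _ _ => rfl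
      ext c
      rw [mem_filter, mem_PP, mem_PP, le_min_iff, Nat.cast_le]
      tauto
    rw [h2]
    refine (hθ _ (le_min hX0.le (by positivity))).trans ?_
    have h3 : (min X (k : ℝ)) ^ (5 / 6 : ℝ) ≤ X ^ (5 / 6 : ℝ) :=
      Real.rpow_le_rpow (le_min hX0.le (by positivity)) (min_le_left _ _) (by norm_num)
    have := mul_le_mul_of_nonneg_left h3 hε
    linarith
  have h2 : ‖∑ p ∈ PP X, (w p - g (N p) * ((Real.log (N p) : ℂ) * w p))‖ ≤
      4 * B * X ^ (1 / 2 : ℝ) := by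
    have h3 : ∑ p ∈ PP X, (w p - g (N p) * ((Real.log (N p) : ℂ) * w p)) =
        ∑ p ∈ PP y, (w p - g (N p) * ((Real.log (N p) : ℂ) * w p)) := by
      symm
      apply sum_subset
      · intro c hc
        rw [mem_PP] at hc ⊢
        refine ⟨⟨hc.1.1, hc.1.2.trans ?_⟩, hc.2⟩
        rw [hy]
        conv_rhs => rw [← Real.rpow_one X]
        exact Real.rpow_le_rpow_of_exponent_le hX.le (by norm_num)
      · intro c hc hcy
        rw [mem_PP] at hc hcy
        have h4 : y < N c := by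
          by_contra h5
          exact hcy ⟨⟨hc.1.1, not_lt.1 h5⟩, hc.2⟩
        have h5 : Real.log (N c) ≠ 0 := (Real.log_pos (hy1.trans h4)).ne'
        simp only [hg, max_eq_left h4.le]
        rw [← mul_assoc]
        rw [show ((1 / Real.log (N c) : ℝ) : ℂ) * (Real.log (N c) : ℂ) = 1 by
          rw [← Complex.ofReal_mul, one_div_mul_cancel h5, Complex.ofReal_one]]
        ring
    rw [h3]
    calc ‖∑ p ∈ PP y, (w p - g (N p) * ((Real.log (N p) : ℂ) * w p))‖
        ≤ ∑ p ∈ PP y, B := by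
          refine (norm_sum_le _ _).trans (sum_le_sum fun c hc => ?_)
          rw [mem_PP] at hc
          have e : w c - g (N c) * ((Real.log (N c) : ℂ) * w c) =
              ((1 - Real.log (N c) / Real.log y : ℝ) : ℂ) * w c := by
            simp only [hg, max_eq_right hc.1.2]
            push_cast; ring
          rw [e, norm_mul, Complex.norm_real, Real.norm_eq_abs]
          have h4 : |1 - Real.log (N c) / Real.log y| ≤ 1 := by
            have h5 : 0 ≤ Real.log (N c) / Real.log y :=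
              div_nonneg (Real.log_natCast_nonneg _) (Real.log_pos hy1).le
            have h6 : Real.log (N c) / Real.log y ≤ 1 := by
              rw [div_le_one (Real.log_pos hy1)]
              exact log_nat_le hy1.le hc.1.2
            rw [abs_le]; constructor <;> linarith
          calc _ ≤ 1 * B := mul_le_mul h4 (hB c) (norm_nonneg _) (by norm_num)
            _ = B := one_mul B
      _ = B * (PP y).card := by rw [sum_const, nsmul_eq_mul]; ring
      _ ≤ B * (4 * y) := by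
          refine mul_le_mul_of_nonneg_left ?_ hB0
          refine le_trans ?_ (card_PB_le (by linarith))
          exact_mod_cast card_le_card (filter_subset _ _)
      _ = _ := by ring
  have h3 : ∑ p ∈ PP X, w p = ∑ p ∈ PP X, g (N p) * ((Real.log (N p) : ℂ) * w p) +
      ∑ p ∈ PP X, (w p - g (N p) * ((Real.log (N p) : ℂ) * w p)) := by
    rw [← sum_add_distrib]
    exact sum_congr rfl fun _ _ => by ring
  rw [h3]
  refine (norm_add_le _ _).trans (add_le_add (h1.trans (le_of_eq ?_)) h2)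
  rw [hly]; field_simp

/-- **Final sieve theorem (block 20a).** If `w` is bounded, supported on squarefree primary
elements, and satisfies the rough Type I, interior Type II, central and edge estimates, then
`∑_{N p ≤ X} w(p) = o(X^{5/6}/log X)` over primary primes. -/
theorem primes_tendsto {w : O → ℂ} (hw : SqSupp w) {B : ℝ} (hB : ∀ c, ‖w c‖ ≤ B)
    {d κ η : ℝ} (hd : 0 < d) (hκ : 0 < κ)
    (hη : 0 < η) (hη3 : η ≤ 1 / 3) (h1 : 1 / 3 + d < 1 / 2 - κ)
    (TR : TRH w d η) (T2 : TIIH w d κ η) (TP : TIIPH w κ η) (TB : TIIBH w κ η)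
    (hE : EdgeH w d η) (hR : RoughCount η) (hD : DensZero) :
    Tendsto (fun X : ℝ => ‖∑ p ∈ PP X, w p‖ / (X ^ (5 / 6 : ℝ) / Real.log X)) atTop (𝓝 0) := by
  have hB0 : 0 ≤ B := (norm_nonneg _).trans (hB 0)
  rw [Metric.tendsto_atTop]
  intro ε hε
  obtain ⟨K, hK, hθ⟩ := theta_small hw hd hκ hη hη3 h1 TR T2 TP TB hE hR hD
    (ε := ε / 8) (by positivity)
  -- thresholds
  have t1 : Tendsto (fun X : ℝ => Real.log X / X ^ (1 / 3 : ℝ)) atTop (𝓝 0) :=
    (isLittleO_log_rpow_atTop (by norm_num)).tendsto_div_nhds_zero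
  have t2 : Tendsto (fun X : ℝ => X ^ (-(5 / 6) : ℝ)) atTop (𝓝 0) :=
    tendsto_rpow_neg_atTop (by norm_num)
  have e1 : ∀ᶠ X in atTop, Real.log X / X ^ (1 / 3 : ℝ) < ε / (16 * (B + 1)) :=
    t1.eventually_lt_const (by positivity)
  have e2 : ∀ᶠ X in atTop, X ^ (-(5 / 6) : ℝ) < ε / (8 * (K + 1)) :=
    t2.eventually_lt_const (by positivity)
  obtain ⟨X₀, hX₀⟩ := eventually_atTop.1 ((eventually_gt_atTop (1 : ℝ)).and (e1.and e2))
  refine ⟨X₀, ?_⟩
  intro X hX
  obtain ⟨hX1, h2, h3⟩ := hX₀ X hX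
  have hX0 : 0 < X := by linarith
  have hL : 0 < Real.log X := Real.log_pos hX1
  have hP := sum_primes_le hB (by positivity) hK hθ hX1
  rw [Real.dist_eq, sub_zero, abs_of_nonneg (by positivity)]
  have hX56 : 0 < X ^ (5 / 6 : ℝ) := by positivity
  rw [div_lt_iff₀ (by positivity)]
  have h5 : X ^ (1 / 2 : ℝ) = X ^ (5 / 6 : ℝ) / X ^ (1 / 3 : ℝ) := by
    rw [← Real.rpow_sub hX0]; norm_num
  have h6 : 4 * B * X ^ (1 / 2 : ℝ) ≤ ε / 4 * (X ^ (5 / 6 : ℝ) / Real.log X) := by
    have h7 : B * (Real.log X / X ^ (1 / 3 : ℝ)) ≤ ε / 16 := by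
      calc B * (Real.log X / X ^ (1 / 3 : ℝ)) ≤ (B + 1) * (ε / (16 * (B + 1))) :=
            mul_le_mul (by linarith) h2.le (by positivity) (by positivity)
        _ = ε / 16 := by field_simp
    calc 4 * B * X ^ (1 / 2 : ℝ)
        = 4 * (B * (Real.log X / X ^ (1 / 3 : ℝ))) * (X ^ (5 / 6 : ℝ) / Real.log X) := by
          rw [h5]; field_simp
      _ ≤ 4 * (ε / 16) * (X ^ (5 / 6 : ℝ) / Real.log X) :=
          mul_le_mul_of_nonneg_right (by linarith) (by positivity)
      _ = _ := by ring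
  have h7 : K ≤ ε / 8 * X ^ (5 / 6 : ℝ) := by
    have h8 : (K + 1) * X ^ (-(5 / 6) : ℝ) ≤ ε / 8 := by
      calc (K + 1) * X ^ (-(5 / 6) : ℝ) ≤ (K + 1) * (ε / (8 * (K + 1))) :=
            mul_le_mul_of_nonneg_left h3.le (by linarith)
        _ = ε / 8 := by field_simp
    have h9 : X ^ (-(5 / 6) : ℝ) * X ^ (5 / 6 : ℝ) = 1 := by
      rw [← Real.rpow_add hX0]; norm_num
    calc K ≤ (K + 1) * (X ^ (-(5 / 6) : ℝ) * X ^ (5 / 6 : ℝ)) := by rw [h9]; linarith
      _ = ((K + 1) * X ^ (-(5 / 6) : ℝ)) * X ^ (5 / 6 : ℝ) := by ring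
      _ ≤ _ := mul_le_mul_of_nonneg_right h8 hX56.le
  calc _ ≤ _ := hP
    _ ≤ 2 / Real.log X * (ε / 8 * X ^ (5 / 6 : ℝ) + ε / 8 * X ^ (5 / 6 : ℝ)) +
        ε / 4 * (X ^ (5 / 6 : ℝ) / Real.log X) := by
        refine add_le_add ?_ h6
        exact mul_le_mul_of_nonneg_left (by linarith) (by positivity)
    _ = 3 / 4 * ε * (X ^ (5 / 6 : ℝ) / Real.log X) := by ring
    _ < ε * (X ^ (5 / 6 : ℝ) / Real.log X) := by
        apply mul_lt_mul_of_pos_right _ (by positivity)
        linarith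

end Vale.Agent.P006.VR
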