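import Vale.Agent.P006.H845.Count
import Mathlib.RingTheory.UniqueFactorizationDomain.Basic

/-!
P006, block 20a (helper103): Vaughan's identity on squarefree primary elements of `O = ℤ[ω]`.
-/

namespace Vale.Agent.P006.VR

open Vale.Agent.P006 Finset

/-- Moebius sign `(-1)^{number of prime factors}` -/
noncomputable def mu (d : O) : ℝ := (-1) ^ (UniqueFactorizationMonoid.factors d).card

open Classical in
/-- the von Mangoldt function, on squarefree elements: `log N p` on primes, zero elsewhere -/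
noncomputable def lamb (c : O) : ℝ := if Prime c then Real.log (N c) else 0

theorem mu_one : mu 1 = 1 := by simp [mu]

theorem abs_mu (d : O) : |mu d| = 1 := by simp [mu]

theorem mu_mul {p d : O} (hp : Prime p) (hd : d ≠ 0) : mu (p * d) = - mu d := by
  have h1 := UniqueFactorizationMonoid.factors_mul hp.ne_zero hd
  have h2 := Multiset.card_eq_card_of_rel h1
  have h3 : (UniqueFactorizationMonoid.factors p).card = 1 :=
    UniqueFactorizationMonoid.card_factors_of_irreducible hp.irreducible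
  rw [mu, h2, Multiset.card_add, h3, pow_add, mu]; ring

theorem lamb_nonneg (c : O) : 0 ≤ lamb c := by
  unfold lamb
  split_ifs
  · exact Real.log_natCast_nonneg _
  · exact le_rfl

theorem lamb_prime {p : O} (hp : Prime p) : lamb p = Real.log (N p) := if_pos hp

theorem lamb_of_not_prime {p : O} (hp : ¬ Prime p) : lamb p = 0 := if_neg hp

theorem lamb_le (c : O) : lamb c ≤ Real.log (N c) := by
  unfold lamb
  split_ifs
  · exact le_rfl
  · exact Real.log_natCast_nonneg _

/-! ### sums over primary divisors -/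

theorem dvs_one : dvs (1 : O) = {1} := by
  ext d
  rw [mem_dvs one_ne_zero, mem_singleton]
  constructor
  · rintro ⟨h1, h2⟩
    exact h1.eq_one (isUnit_of_dvd_one h2)
  · rintro rfl
    exact ⟨primary_one, dvd_rfl⟩

theorem sum_dvs_mul {M : Type*} [AddCommMonoid M] {p k : O} (hp : Primary p) (hpp : Prime p)
    (hk : Primary k) (hc : IsCoprime p k) (f : O → M) :
    ∑ d ∈ dvs (p * k), f d = ∑ d ∈ dvs k, f d + ∑ d ∈ dvs k, f (p * d) := by
  classical
  have hinj : ∀ x ∈ dvs k, ∀ y ∈ dvs k, p * x = p * y → x = y :=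
    fun x _ y _ h => mul_left_cancel₀ hp.ne_zero h
  rw [← sum_image (s := dvs k) (g := fun d => p * d) (f := f) hinj]
  rw [← sum_union]
  · apply sum_congr _ fun _ _ => rfl
    ext d
    rw [mem_union, mem_image, mem_dvs (hp.mul hk).ne_zero, mem_dvs hk.ne_zero]
    constructor
    · rintro ⟨h1, h2⟩
      by_cases hpd : p ∣ d
      · right
        obtain ⟨e, rfl⟩ := hpd
        refine ⟨e, ?_, rfl⟩
        rw [mem_dvs hk.ne_zero]
        exact ⟨hp.of_mul h1, (mul_dvd_mul_iff_left hp.ne_zero).1 h2⟩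
      · left
        have hcop : IsCoprime p d := (hpp.irreducible.coprime_iff_not_dvd).2 hpd
        exact ⟨h1, hcop.symm.dvd_of_dvd_mul_left h2⟩
    · rintro (⟨h1, h2⟩ | ⟨e, he, rfl⟩)
      · exact ⟨h1, h2.mul_left p⟩
      · rw [mem_dvs hk.ne_zero] at he
        exact ⟨hp.mul he.1, mul_dvd_mul_left p he.2⟩
  · rw [disjoint_left]
    intro d hd hd'
    rw [mem_dvs hk.ne_zero] at hd
    rw [mem_image] at hd'
    obtain ⟨e, -, rfl⟩ := hd'
    have h1 : p ∣ k := (Dvd.intro e rfl).trans hd.2
    exact hpp.not_isUnit (hc.isUnit_of_dvd' dvd_rfl h1)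

theorem coprime_of_squarefree {p k : O} (hpp : Prime p) (hsq : Squarefree (p * k)) :
    IsCoprime p k := by
  have : ¬ p ∣ k := by
    intro h
    have h2 : p * p ∣ p * k := mul_dvd_mul_left p h
    exact hpp.not_isUnit (hsq p h2)
  exact (hpp.irreducible.coprime_iff_not_dvd).2 this

open Classical in
theorem sum_mu : ∀ c : O, Primary c → Squarefree c →
    ∑ d ∈ dvs c, mu d = if c = 1 then 1 else 0 := by
  refine Primary.induction ?_ ?_
  · intro _
    simp [dvs_one, mu_one]
  · intro p k hpp hp hk ih hsq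
    have hsk : Squarefree k := hsq.squarefree_of_dvd (Dvd.intro_left p rfl)
    rw [sum_dvs_mul hp hpp hk (coprime_of_squarefree hpp hsq)]
    have h3 : ∀ d ∈ dvs k, mu (p * d) = - mu d := by
      intro d hd
      rw [mem_dvs hk.ne_zero] at hd
      exact mu_mul hpp hd.1.ne_zero
    rw [sum_congr rfl h3, sum_neg_distrib, add_neg_cancel, if_neg]
    intro h
    exact hpp.not_isUnit (IsUnit.of_mul_eq_one _ h)

theorem sum_lamb : ∀ c : O, Primary c → Squarefree c →
    ∑ d ∈ dvs c, lamb d = Real.log (N c) := by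
  refine Primary.induction ?_ ?_
  · intro _
    rw [dvs_one, sum_singleton, lamb_of_not_prime not_prime_one]
    simp
  · intro p k hpp hp hk ih hsq
    have hsk : Squarefree k := hsq.squarefree_of_dvd (Dvd.intro_left p rfl)
    rw [sum_dvs_mul hp hpp hk (coprime_of_squarefree hpp hsq), ih hsk]
    have h3 : ∀ d ∈ dvs k, d ≠ 1 → lamb (p * d) = 0 := by
      intro d hd hd1
      rw [mem_dvs hk.ne_zero] at hd
      apply lamb_of_not_prime
      intro h
      rcases h.irreducible.isUnit_or_isUnit rfl with h1 | h1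
      · exact hpp.not_isUnit h1
      · exact hd1 (hd.1.eq_one h1)
    rw [sum_eq_single_of_mem 1 hk.one_mem_dvs h3, mul_one, lamb_prime hpp, N_mul, Nat.cast_mul,
      Real.log_mul]
    · ring
    · exact_mod_cast (N_pos hp.ne_zero).ne'
    · exact_mod_cast (N_pos hk.ne_zero).ne'

/-! ### pairs `(m,l)` with `m l ∣ c` -/

/-- `{m : m l ∣ c}` for `l ∣ c` is the set of divisors of the quotient -/
theorem filter_dvs_mul {c l k : O} (hc : Primary c) (hl : Primary l) (h : c = l * k) :
    (dvs c).filter (fun m => m * l ∣ c) = dvs k := by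
  have hk : Primary k := hc.quot hl h
  ext m
  rw [mem_filter, mem_dvs hc.ne_zero, mem_dvs hk.ne_zero]
  constructor
  · rintro ⟨⟨h1, _⟩, h3⟩
    refine ⟨h1, ?_⟩
    rw [h, mul_comm m l] at h3
    exact (mul_dvd_mul_iff_left hl.ne_zero).1 h3
  · rintro ⟨h1, h2⟩
    refine ⟨⟨h1, ?_⟩, ?_⟩
    · rw [h]; exact h2.mul_left l
    · rw [h, mul_comm m l]; exact mul_dvd_mul_left l h2

/-- `∑_{l : m l ∣ c} Λ(l) = log N c - log N m`, `m ∣ c`, `c` squarefree -/
theorem sum_lamb_pair {c m : O} (hc : Primary c) (hsq : Squarefree c) (hm : m ∈ dvs c) :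
    ∑ l ∈ (dvs c).filter (fun l => m * l ∣ c), lamb l = Real.log (N c) - Real.log (N m) := by
  rw [mem_dvs hc.ne_zero] at hm
  obtain ⟨hm, k, h⟩ := hm
  have hk : Primary k := hc.quot hm h
  have h1 : (dvs c).filter (fun l => m * l ∣ c) = dvs k := by
    rw [← filter_dvs_mul hc hm h]
    exact filter_congr fun l _ => by rw [mul_comm]
  rw [h1, sum_lamb k hk (hsq.squarefree_of_dvd ⟨m, by rw [h]; ring⟩), h, N_mul, Nat.cast_mul,
    Real.log_mul]
  · ring
  · exact_mod_cast (N_pos hm.ne_zero).ne'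
  · exact_mod_cast (N_pos hk.ne_zero).ne'

open Classical in
/-- `∑_{m : m l ∣ c} μ(m) = [l = c]`, `l ∣ c`, `c` squarefree -/
theorem sum_mu_pair {c l : O} (hc : Primary c) (hsq : Squarefree c) (hl : l ∈ dvs c) :
    ∑ m ∈ (dvs c).filter (fun m => m * l ∣ c), mu m = if l = c then 1 else 0 := by
  rw [mem_dvs hc.ne_zero] at hl
  obtain ⟨hl, k, h⟩ := hl
  have hk : Primary k := hc.quot hl h
  rw [filter_dvs_mul hc hl h, sum_mu k hk (hsq.squarefree_of_dvd ⟨l, by rw [h]; ring⟩)]
  have : l = c ↔ k = 1 := by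
    constructor
    · intro h2
      rw [← h2] at h
      have : l * 1 = l * k := by rw [mul_one]; exact h
      exact (mul_left_cancel₀ hl.ne_zero this).symm
    · intro h2
      rw [h, h2, mul_one]
  simp [this]

/-- **Vaughan's identity** on squarefree primary elements -/
theorem vaughan {c : O} (hc : Primary c) (hsq : Squarefree c) (U V : ℝ) :
    (if V < (N c : ℝ) then lamb c else 0) =
      ∑ m ∈ (dvs c).filter (fun m => (N m : ℝ) ≤ U), mu m * (Real.log (N c) - Real.log (N m))
      - ∑ m ∈ (dvs c).filter (fun m => (N m : ℝ) ≤ U),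
          ∑ l ∈ (dvs c).filter (fun l => m * l ∣ c),
            (if (N l : ℝ) ≤ V then mu m * lamb l else 0)
      + ∑ l ∈ (dvs c).filter (fun l => V < (N l : ℝ)),
          ∑ m ∈ (dvs c).filter (fun m => m * l ∣ c),
            (if U < (N m : ℝ) then mu m * lamb l else 0) := by
  classical
  -- left side
  have h1 : (if V < (N c : ℝ) then lamb c else 0) =
      ∑ l ∈ (dvs c).filter (fun l => V < (N l : ℝ)),
        ∑ m ∈ (dvs c).filter (fun m => m * l ∣ c), mu m * lamb l := by
    have h2 : ∀ l ∈ (dvs c).filter (fun l => V < (N l : ℝ)),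
        ∑ m ∈ (dvs c).filter (fun m => m * l ∣ c), mu m * lamb l
          = if l = c then lamb c else 0 := by
      intro l hl
      rw [← sum_mul, sum_mu_pair hc hsq (mem_of_mem_filter _ hl)]
      split_ifs with h
      · rw [h, one_mul]
      · rw [zero_mul]
    rw [sum_congr rfl h2, sum_ite_eq' _ c]
    simp [mem_dvs hc.ne_zero, hc]
  rw [h1]
  -- split according to the size of `m`
  have h2 : ∑ l ∈ (dvs c).filter (fun l => V < (N l : ℝ)),
        ∑ m ∈ (dvs c).filter (fun m => m * l ∣ c), mu m * lamb l =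
      ∑ l ∈ (dvs c).filter (fun l => V < (N l : ℝ)),
        ∑ m ∈ (dvs c).filter (fun m => m * l ∣ c),
          (if (N m : ℝ) ≤ U then mu m * lamb l else 0)
      + ∑ l ∈ (dvs c).filter (fun l => V < (N l : ℝ)),
        ∑ m ∈ (dvs c).filter (fun m => m * l ∣ c),
          (if U < (N m : ℝ) then mu m * lamb l else 0) := by
    rw [← sum_add_distrib]
    refine sum_congr rfl fun l _ => ?_
    rw [← sum_add_distrib]
    refine sum_congr rfl fun m _ => ?_
    by_cases h : (N m : ℝ) ≤ U
    · rw [if_pos h, if_neg (not_lt.2 h), add_zero]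
    · rw [if_neg h, if_pos (not_le.1 h), zero_add]
  rw [h2]
  congr 1
  -- swap
  have h3 : ∑ l ∈ (dvs c).filter (fun l => V < (N l : ℝ)),
        ∑ m ∈ (dvs c).filter (fun m => m * l ∣ c),
          (if (N m : ℝ) ≤ U then mu m * lamb l else 0) =
      ∑ m ∈ (dvs c).filter (fun m => (N m : ℝ) ≤ U),
        ∑ l ∈ (dvs c).filter (fun l => m * l ∣ c),
          (if V < (N l : ℝ) then mu m * lamb l else 0) := by
    simp_rw [sum_filter]
    have h4 : ∀ l ∈ dvs c, (if V < (N l : ℝ) then
        ∑ m ∈ dvs c, (if m * l ∣ c then (if (N m : ℝ) ≤ U then mu m * lamb l else 0) else 0)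
        else 0) = ∑ m ∈ dvs c, (if V < (N l : ℝ) ∧ m * l ∣ c ∧ (N m : ℝ) ≤ U then
          mu m * lamb l else 0) := by
      intro l _
      by_cases h : V < (N l : ℝ)
      · rw [if_pos h]
        refine sum_congr rfl fun m _ => ?_
        by_cases h5 : m * l ∣ c <;> by_cases h6 : (N m : ℝ) ≤ U <;> simp [h, h5, h6]
      · rw [if_neg h]
        symm
        exact sum_eq_zero fun m _ => by simp [h]
    have h5 : ∀ m ∈ dvs c, (if (N m : ℝ) ≤ U then
        ∑ l ∈ dvs c, (if m * l ∣ c then (if V < (N l : ℝ) then mu m * lamb l else 0) else 0)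
        else 0) = ∑ l ∈ dvs c, (if V < (N l : ℝ) ∧ m * l ∣ c ∧ (N m : ℝ) ≤ U then
          mu m * lamb l else 0) := by
      intro m _
      by_cases h : (N m : ℝ) ≤ U
      · rw [if_pos h]
        refine sum_congr rfl fun l _ => ?_
        by_cases h5 : m * l ∣ c <;> by_cases h6 : V < (N l : ℝ) <;> simp [h, h5, h6]
      · rw [if_neg h]
        symm
        exact sum_eq_zero fun m _ => by simp [h]
    rw [sum_congr rfl h4, sum_congr rfl h5, sum_comm]
  rw [h3, eq_sub_iff_add_eq, ← sum_add_distrib]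
  refine sum_congr rfl fun m hm => ?_
  rw [← sum_add_distrib, ← sum_lamb_pair hc hsq (mem_of_mem_filter _ hm), mul_sum]
  refine sum_congr rfl fun l _ => ?_
  by_cases h : (N l : ℝ) ≤ V
  · rw [if_pos h, if_neg (not_lt.2 h), zero_add]
  · rw [if_neg h, if_pos (not_le.1 h), add_zero]

end Vale.Agent.P006.VR
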